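import Vale.Agent.P231.Fm.Dif2
import Vale.Agent.P231.Fm.Cont

/-!
# P231, block F1: degrees of forms, dimension of diffeological spaces
-/

set_option linter.unusedSectionVars false
set_option linter.unusedVariables false

open MeasureTheory Set Module Filter Topology
open scoped ContDiff Manifold

namespace Vale.Agent.P231.WF

open Vale.Agent.P231.Fm

section Lin

variable {E : Type*} [NormedAddCommGroup E] [NormedSpace ℝ E]
variable {F : Type*} [NormedAddCommGroup F] [NormedSpace ℝ F]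

/-- constant coefficient forms of degree `k` -/
noncomputable def hom (E : Type*) [NormedAddCommGroup E] [NormedSpace ℝ E] (k : ℕ) :
    Submodule ℝ (Lam E) := LinearMap.range (dxl : (E →L[ℝ] ℝ) →ₗ[ℝ] Lam E) ^ k

theorem algebraMap_mem_hom (r : ℝ) : algebraMap ℝ (Lam E) r ∈ hom E 0 := by
  rw [hom, pow_zero]
  exact Submodule.mem_one.2 ⟨r, rfl⟩

theorem mem_hom_zero {w : Lam E} : w ∈ hom E 0 ↔ ∃ r : ℝ, algebraMap ℝ (Lam E) r = w := by
  rw [hom, pow_zero]
  exact Submodule.mem_one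

theorem one_mem_hom : (1 : Lam E) ∈ hom E 0 := by
  have := algebraMap_mem_hom (E := E) 1
  rwa [map_one] at this

theorem dxl_mem_hom (a : E →L[ℝ] ℝ) : dxl a ∈ hom E 1 := by
  rw [hom, pow_one]
  exact ⟨a, rfl⟩

theorem mul_mem_hom {j k : ℕ} {v w : Lam E} (hv : v ∈ hom E j) (hw : w ∈ hom E k) :
    v * w ∈ hom E (j + k) := by
  rw [hom, pow_add]
  exact Submodule.mul_mem_mul hv hw

theorem pow_mem_hom {j : ℕ} {v : Lam E} (hv : v ∈ hom E j) (n : ℕ) : v ^ n ∈ hom E (j * n) := by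
  induction n with
  | zero => simpa using one_mem_hom
  | succ n ih =>
    rw [pow_succ, Nat.mul_succ]
    exact mul_mem_hom ih hv

/-- induction in positive degree -/
theorem hom_succ_induction {k : ℕ} {C : Lam E → Prop} (h0 : C 0)
    (h1 : ∀ a : E →L[ℝ] ℝ, ∀ w ∈ hom E k, C (dxl a * w))
    (h2 : ∀ v w, C v → C w → C (v + w)) {w : Lam E} (hw : w ∈ hom E (k + 1)) : C w := by
  rw [hom, pow_succ'] at hw
  induction hw using Submodule.mul_induction_on' with
  | mem_mul_mem m hm n hn =>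
    obtain ⟨a, rfl⟩ := hm
    exact h1 a n hn
  | add x hx y hy h3 h4 => exact h2 _ _ h3 h4

theorem inv_of_mem_hom {k : ℕ} {w : Lam E} (hw : w ∈ hom E k) : inv w = (-1 : ℝ) ^ k • w := by
  induction k generalizing w with
  | zero =>
    obtain ⟨r, rfl⟩ := mem_hom_zero.1 hw
    rw [AlgHom.commutes, pow_zero, one_smul]
  | succ k ih =>
    refine hom_succ_induction (C := fun w => inv w = (-1 : ℝ) ^ (k + 1) • w) ?_ ?_ ?_ hw
    · simp
    · intro a v hv
      rw [map_mul, inv_dxl, ih hv, pow_succ', mul_smul, neg_one_smul, mul_smul_comm, neg_mul,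
        smul_neg]
    · intro v w hv hw
      rw [map_add, hv, hw, smul_add]

theorem pull_mem_hom (L : E →L[ℝ] F) {k : ℕ} {w : Lam F} (hw : w ∈ hom F k) :
    pull L w ∈ hom E k := by
  induction k generalizing w with
  | zero =>
    obtain ⟨r, rfl⟩ := mem_hom_zero.1 hw
    rw [AlgHom.commutes]
    exact algebraMap_mem_hom r
  | succ k ih =>
    refine hom_succ_induction (C := fun w => pull L w ∈ hom E (k + 1)) ?_ ?_ ?_ hw
    · rw [map_zero]
      exact zero_mem _
    · intro a v hv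
      rw [map_mul, pull_dxl, add_comm k 1]
      exact mul_mem_hom (dxl_mem_hom _) (ih hv)
    · intro v w hv hw
      rw [map_add]
      exact add_mem hv hw

end Lin

section FD

variable {E : Type*} [NormedAddCommGroup E] [NormedSpace ℝ E] [FiniteDimensional ℝ E]
variable {F : Type*} [NormedAddCommGroup F] [NormedSpace ℝ F] [FiniteDimensional ℝ F]

theorem dx_mem_hom (a : E →L[ℝ] ℝ) : dx a ∈ hom E 1 := dxl_mem_hom a

theorem finrank_clm : finrank ℝ (E →L[ℝ] ℝ) = finrank ℝ E := by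
  rw [← (LinearMap.toContinuousLinearMap (𝕜 := ℝ) (E := E) (F' := ℝ)).finrank_eq]
  exact Subspace.dual_finrank_eq

/-- no forms of degree larger than the dimension -/
theorem hom_eq_bot {k : ℕ} (h : finrank ℝ E < k) : hom E k = ⊥ := by
  have h1 : finrank ℝ (⋀[ℝ]^k (E →L[ℝ] ℝ)) = (finrank ℝ (E →L[ℝ] ℝ)).choose k :=
    exteriorPower.finrank_eq ℝ _
  rw [finrank_clm, Nat.choose_eq_zero_of_lt h] at h1
  have h2 : (⋀[ℝ]^k (E →L[ℝ] ℝ)) = ⊥ := by
    rw [← Submodule.finrank_eq_zero (R := ℝ)]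
    exact h1
  exact h2

theorem eq_zero_of_mem_hom {k : ℕ} (h : finrank ℝ E < k) {w : Lam E} (hw : w ∈ hom E k) :
    w = 0 := by
  rw [hom_eq_bot h] at hw
  exact (Submodule.mem_bot ℝ).1 hw

theorem dLin_mem_hom {k : ℕ} {T : E →L[ℝ] Lam E} (h : ∀ v, T v ∈ hom E k) :
    dLin T ∈ hom E (k + 1) := by
  rw [dLin_apply]
  refine Submodule.sum_mem _ fun i _ => ?_
  rw [add_comm k 1]
  exact mul_mem_hom (dx_mem_hom _) (h _)

theorem iprod_mem_hom (v : E) {k : ℕ} {w : Lam E} (hw : w ∈ hom E (k + 1)) :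
    iprod v w ∈ hom E k := by
  induction k generalizing w with
  | zero =>
    refine hom_succ_induction (C := fun w => iprod v w ∈ hom E 0) ?_ ?_ ?_ hw
    · rw [map_zero]
      exact zero_mem _
    · intro a u hu
      obtain ⟨r, rfl⟩ := mem_hom_zero.1 hu
      have h := iprod_dx_mul v a (algebraMap ℝ (Lam E) r)
      rw [iprod_algebraMap, mul_zero, sub_zero] at h
      rw [← dx_eq, h]
      exact Submodule.smul_mem _ _ (algebraMap_mem_hom r)
    · intro u w hu hw
      rw [map_add]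
      exact add_mem hu hw
  | succ k ih =>
    refine hom_succ_induction (C := fun w => iprod v w ∈ hom E (k + 1)) ?_ ?_ ?_ hw
    · rw [map_zero]
      exact zero_mem _
    · intro a u hu
      have h := iprod_dx_mul v a u
      rw [← dx_eq, h]
      refine sub_mem (Submodule.smul_mem _ _ hu) ?_
      rw [add_comm k 1]
      exact mul_mem_hom (dx_mem_hom _) (ih hu)
    · intro u w hu hw
      rw [map_add]
      exact add_mem hu hw

theorem iprod_hom_zero (v : E) {w : Lam E} (hw : w ∈ hom E 0) : iprod v w = 0 := by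
  obtain ⟨r, rfl⟩ := mem_hom_zero.1 hw
  exact iprod_algebraMap v r

/-- a subspace of a finite-dimensional space is the kernel of a continuous linear map -/
theorem exists_clm_ker {V : Type*} [NormedAddCommGroup V] [NormedSpace ℝ V]
    [FiniteDimensional ℝ V] (p : Submodule ℝ V) : ∃ f : V →L[ℝ] V, ∀ v, f v = 0 ↔ v ∈ p := by
  obtain ⟨q, hq⟩ := Submodule.exists_isCompl p
  refine ⟨LinearMap.toContinuousLinearMap (q.subtype.comp (Submodule.projectionOnto q p hq.symm)),
    fun v => ?_⟩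
  have h : (LinearMap.toContinuousLinearMap
      (q.subtype.comp (Submodule.projectionOnto q p hq.symm))) v =
      ((Submodule.projectionOnto q p hq.symm v : q) : V) := rfl
  rw [h, Submodule.coe_eq_zero]
  exact Submodule.projectionOnto_apply_eq_zero_iff hq.symm

/-- the derivative of a map into a subspace -/
theorem fderiv_mem {V W : Type*} [NormedAddCommGroup V] [NormedSpace ℝ V]
    [FiniteDimensional ℝ V] [NormedAddCommGroup W] [NormedSpace ℝ W] (p : Submodule ℝ V)
    {f : W → V} {x : W} (hf : DifferentiableAt ℝ f x) (h : ∀ᶠ y in 𝓝 x, f y ∈ p) (w : W) :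
    fderiv ℝ f x w ∈ p := by
  obtain ⟨q, hq⟩ := exists_clm_ker p
  rw [← hq]
  have h1 : HasFDerivAt (fun y => q (f y)) (q.comp (fderiv ℝ f x)) x :=
    q.hasFDerivAt.comp x hf.hasFDerivAt
  have h2 : (fun y => q (f y)) =ᶠ[𝓝 x] fun _ => 0 := by
    filter_upwards [h] with y hy using (hq _).2 hy
  have h3 : HasFDerivAt (fun y => q (f y)) (0 : W →L[ℝ] V) x :=
    (hasFDerivAt_const (0 : V) x).congr_of_eventuallyEq h2
  have h4 := h1.unique h3
  exact DFunLike.congr_fun h4 w

/-- the integral of a map into a subspace -/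
theorem integral_mem {V : Type*} [NormedAddCommGroup V] [NormedSpace ℝ V]
    [FiniteDimensional ℝ V] (p : Submodule ℝ V) {f : ℝ → V} {a b : ℝ} (h : ∀ t, f t ∈ p) :
    (∫ t in a..b, f t) ∈ p := by
  have : CompleteSpace V := FiniteDimensional.complete ℝ V
  by_cases hf : IntervalIntegrable f volume a b
  · obtain ⟨q, hq⟩ := exists_clm_ker p
    rw [← hq, ← ContinuousLinearMap.intervalIntegral_comp_comm q hf]
    have : ∀ t, q (f t) = 0 := fun t => (hq _).2 (h t)
    simp [this]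
  · rw [intervalIntegral.integral_undef hf]
    exact zero_mem _

theorem extd_mem_hom {w : E → Lam E} {x : E} {k : ℕ} (hw : DifferentiableAt ℝ w x)
    (h : ∀ᶠ y in 𝓝 x, w y ∈ hom E k) : extd w x ∈ hom E (k + 1) :=
  dLin_mem_hom fun v => fderiv_mem _ hw h v

end FD

/-! ### forms on diffeological spaces -/

section Forms

variable {X Y : Type*} {D : Dif X} {D' : Dif Y}

/-- homogeneous forms -/
def IsDeg (a : Form D) (k : ℕ) : Prop :=
  ∀ {E : Type} [NormedAddCommGroup E] [NormedSpace ℝ E] [FiniteDimensional ℝ E]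
    {u : E → X} {x : E}, D.At u x → a.val u x ∈ hom E k

theorem IsDeg.zero (k : ℕ) : IsDeg (0 : Form D) k := fun {E} _ _ _ {u x} _ => by
  rw [Form.zero_val]
  exact zero_mem _

theorem IsDeg.add {a b : Form D} {k : ℕ} (ha : IsDeg a k) (hb : IsDeg b k) : IsDeg (a + b) k :=
  fun {E} _ _ _ {u x} h => by
    rw [Form.add_val]
    exact add_mem (ha h) (hb h)

theorem IsDeg.neg {a : Form D} {k : ℕ} (ha : IsDeg a k) : IsDeg (-a) k :=
  fun {E} _ _ _ {u x} h => by
    rw [Form.neg_val]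
    exact neg_mem (ha h)

theorem IsDeg.sub {a b : Form D} {k : ℕ} (ha : IsDeg a k) (hb : IsDeg b k) : IsDeg (a - b) k :=
  fun {E} _ _ _ {u x} h => by
    rw [Form.sub_val]
    exact sub_mem (ha h) (hb h)

theorem IsDeg.smul {a : Form D} {k : ℕ} (c : ℝ) (ha : IsDeg a k) : IsDeg (c • a) k :=
  fun {E} _ _ _ {u x} h => by
    rw [Form.smul_val]
    exact Submodule.smul_mem _ _ (ha h)

theorem IsDeg.one : IsDeg (1 : Form D) 0 := fun {E} _ _ _ {u x} h => by
  rw [Form.one_val h]
  exact one_mem_hom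

theorem IsDeg.mul {a b : Form D} {j k : ℕ} (ha : IsDeg a j) (hb : IsDeg b k) :
    IsDeg (a * b) (j + k) := fun {E} _ _ _ {u x} h => by
  rw [Form.mul_val]
  exact mul_mem_hom (ha h) (hb h)

theorem IsDeg.pow {a : Form D} {j : ℕ} (ha : IsDeg a j) (n : ℕ) : IsDeg (a ^ n) (j * n) := by
  induction n with
  | zero =>
    rw [pow_zero, mul_zero]
    exact IsDeg.one
  | succ n ih =>
    rw [pow_succ, Nat.mul_succ]
    exact ih.mul ha

theorem IsDeg.fn (f : X → ℝ) (hf : D.Map (Dif.lin ℝ) f) : IsDeg (Form.fn f hf) 0 :=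
  fun {E} _ _ _ {u x} h => by
    rw [Form.fn_val f hf h]
    exact algebraMap_mem_hom _

theorem IsDeg.d {a : Form D} {k : ℕ} (ha : IsDeg a k) : IsDeg a.d (k + 1) :=
  fun {E} _ _ _ {u x} h => by
    rw [Form.d_val _ h]
    refine extd_mem_hom (a.differentiableAt h) ?_
    filter_upwards [D.open' h] with y hy using ha hy

theorem IsDeg.sg {a : Form D} {k : ℕ} (ha : IsDeg a k) : a.sg = (-1 : ℝ) ^ k • a :=
  Form.ext_val fun E _ _ _ u x h => by
    rw [Form.sg_val, Form.smul_val, inv_of_mem_hom (ha h)]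

theorem IsDeg.sg_even {a : Form D} {k : ℕ} (ha : IsDeg a (2 * k)) : a.sg = a := by
  rw [ha.sg, pow_mul, neg_one_sq, one_pow, one_smul]

theorem IsDeg.sg_odd {a : Form D} {k : ℕ} (ha : IsDeg a (2 * k + 1)) : a.sg = -a := by
  rw [ha.sg, pow_succ, pow_mul, neg_one_sq, one_pow, one_mul, neg_one_smul]

theorem IsDeg.pull {f : X → Y} (hf : D.Map D' f) {a : Form D'} {k : ℕ} (ha : IsDeg a k) :
    IsDeg (Form.pull f hf a) k := fun {E} _ _ _ {u x} h => by
  rw [Form.pull_val hf _ h]
  exact ha (hf h)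

theorem IsDeg.K {w : Form (D.prod (Dif.lin ℝ))} {k : ℕ} (hw : IsDeg w (k + 1)) :
    IsDeg (Form.K w) k := fun {E} _ _ _ {u x} h => by
  rw [Form.K_val _ h, kop]
  refine integral_mem _ fun t => ?_
  rw [at1_apply, at0_apply]
  exact pull_mem_hom _ (iprod_mem_hom _ (hw (Form.cyl_at h t)))

theorem IsDeg.K_zero {w : Form (D.prod (Dif.lin ℝ))} (hw : IsDeg w 0) : Form.K w = 0 :=
  Form.ext_val fun E _ _ _ u x h => by
    rw [Form.K_val _ h, kop, Form.zero_val]
    have : ∀ t : ℝ, at1 (w.val (Form.cyl u) (x, t)) = 0 := fun t => by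
      rw [at1_apply, iprod_hom_zero _ (hw (Form.cyl_at h t)), map_zero]
    simp [this]

/-- every plot factors locally through a plot of a space of dimension at most `m` -/
def DimLE (D : Dif X) (m : ℕ) : Prop :=
  ∀ {E : Type} [NormedAddCommGroup E] [NormedSpace ℝ E] [FiniteDimensional ℝ E]
    {u : E → X} {x : E}, D.At u x → ∃ (F : Type) (_ : NormedAddCommGroup F) (_ : NormedSpace ℝ F)
      (_ : FiniteDimensional ℝ F) (v : F → X) (g : E → F),
      finrank ℝ F ≤ m ∧ Sm g x ∧ D.At v (g x) ∧ u =ᶠ[𝓝 x] v ∘ g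

/-- every plot factors locally through a plot of the Euclidean space `ℝ^m` -/
def DimEq (D : Dif X) (m : ℕ) : Prop :=
  ∀ {E : Type} [NormedAddCommGroup E] [NormedSpace ℝ E] [FiniteDimensional ℝ E]
    {u : E → X} {x : E}, D.At u x → ∃ (c : EuclideanSpace ℝ (Fin m) → X)
      (g : E → EuclideanSpace ℝ (Fin m)), Sm g x ∧ D.At c (g x) ∧ u =ᶠ[𝓝 x] c ∘ g

theorem DimEq.dimLE {m : ℕ} (h : DimEq D m) : DimLE D m := fun {E} _ _ _ {u x} hu => by
  obtain ⟨c, g, h1, h2, h3⟩ := h hu
  exact ⟨_, _, _, inferInstance, c, g,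
    (by rw [finrank_euclideanSpace, Fintype.card_fin]), h1, h2, h3⟩

theorem eq_zero_of_isDeg {m k : ℕ} (hD : DimLE D m) (hk : m < k) {a : Form D}
    (ha : IsDeg a k) : a = 0 := Form.ext_val fun E _ _ _ u x h => by
  obtain ⟨F, _, _, _, c, g, hF, hg, hc, hu⟩ := hD h
  rw [a.congr h hu, a.nat hc hg, Form.zero_val, eq_zero_of_mem_hom (k := k) (by omega) (ha hc),
    map_zero]

/-- `F ^ (n + 1) = 0` for a `2`-form in dimension at most `2 n + 1` -/
theorem pow_eq_zero_of_dimLE {m n : ℕ} (hD : DimLE D m) (hm : m < 2 * (n + 1)) {F : Form D}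
    (hF : IsDeg F 2) : F ^ (n + 1) = 0 :=
  eq_zero_of_isDeg hD hm (hF.pow (n + 1))

/-- two forms agree if they agree on the plots of `ℝ^m` -/
theorem form_ext_dimEq {m : ℕ} (hD : DimEq D m) {a b : Form D}
    (h : ∀ (c : EuclideanSpace ℝ (Fin m) → X) (y : EuclideanSpace ℝ (Fin m)), D.At c y →
      a.val c y = b.val c y) : a = b := Form.ext_val fun E _ _ _ u x hu => by
  obtain ⟨c, g, hg, hc, hu'⟩ := hD hu
  rw [a.congr hu hu', b.congr hu hu', a.nat hc hg, b.nat hc hg, h c _ hc]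

end Forms

end Vale.Agent.P231.WF
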