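import Vale.Agent.P231.WF.Dim
import Vale.Agent.P231.W.Defs
import Vale.Agent.P231.H775.Lift

/-!
# P231, block F1: the unit tangent bundle is smoothly connected; dimensions
-/

set_option maxSynthPendingDepth 3
set_option linter.unusedSectionVars false
set_option linter.unusedVariables false

open Bundle Manifold Set Filter Module Topology
open scoped ContDiff Manifold Topology

namespace Vale.Agent.P231.WF

open Vale.Agent.P231.Fm Vale.Agent.P231.H775 Vale.Agent.P234 Vale.Agent.P231.W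

noncomputable section

/-! ### smoothly connected spaces -/

section Abstract

variable {X : Type*} {D : Dif X}

/-- any two points are joined by a chain of smooth curves -/
def SConn (D : Dif X) : Prop :=
  ∀ {α : Type} (f : X → α), (∀ c : ℝ → X, (∀ t, D.At c t) → ∀ s t, f (c s) = f (c t)) →
    ∀ v w, f v = f w

theorem dx_eq_zero {E : Type*} [NormedAddCommGroup E] [NormedSpace ℝ E] [FiniteDimensional ℝ E]
    {a : E →L[ℝ] ℝ} (h : dx a = 0) : a = 0 := by
  refine ContinuousLinearMap.ext fun v => ?_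
  have h1 := iprod_dx v a
  rw [h, map_zero] at h1
  have h2 := congrArg aug h1
  rw [map_zero, AlgHom.commutes] at h2
  exact h2.symm

/-- the value of the degree zero part of a form at a point -/
def ptv (a : Form D) (x : X) : ℝ := aug (a.val (fun _ : ℝ => x) 0)

theorem ptv_eq (a : Form D) {E : Type} [NormedAddCommGroup E] [NormedSpace ℝ E]
    [FiniteDimensional ℝ E] {u : E → X} {x : E} (h : D.At u x) :
    ptv a (u x) = aug (a.val u x) := by
  have h1 : (fun _ : ℝ => u x) = u ∘ fun _ : ℝ => x := rfl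
  rw [ptv, h1, a.nat (g := fun _ : ℝ => x) (x := (0 : ℝ)) h (Sm.of_contDiff contDiff_const _),
    aug_pull]

theorem val_of_isDeg_zero {a : Form D} (h0 : IsDeg a 0) {E : Type} [NormedAddCommGroup E]
    [NormedSpace ℝ E] [FiniteDimensional ℝ E] {u : E → X} {x : E} (h : D.At u x) :
    a.val u x = algebraMap ℝ (Lam E) (ptv a (u x)) := by
  obtain ⟨r, hr⟩ := mem_hom_zero.1 (h0 h)
  rw [ptv_eq a h, ← hr, AlgHom.commutes]
  rfl

/-- closed forms of degree zero on a smoothly connected space are constant -/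
theorem ptv_const (hc : SConn D) {a : Form D} (h0 : IsDeg a 0) (hd : a.d = 0) (v w : X) :
    ptv a v = ptv a w := by
  refine hc (ptv a) (fun c hcp s t => ?_) v w
  have h1 : ∀ t, a.val c t = Fm.fn (fun t => ptv a (c t)) t := fun t =>
    val_of_isDeg_zero h0 (hcp t)
  have hdiff : Differentiable ℝ (fun t => ptv a (c t)) := fun t => by
    have h2 : DifferentiableAt ℝ (a.val c) t := a.differentiableAt (hcp t)
    have h3 : (fun t => ptv a (c t)) = fun t =>
        (LinearMap.toContinuousLinearMap (aug (E := ℝ)).toLinearMap) (a.val c t) := by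
      funext t
      exact ptv_eq a (hcp t)
    rw [h3]
    exact (ContinuousLinearMap.differentiableAt _).comp t h2
  have h4 : ∀ t, deriv (fun t => ptv a (c t)) t = 0 := fun t => by
    have h5 : a.d.val c t = 0 := by rw [hd, Form.zero_val]
    rw [Form.d_val _ (hcp t)] at h5
    have h6 : extd (a.val c) t = extd (Fm.fn fun t => ptv a (c t)) t :=
      extd_congr (Filter.Eventually.of_forall h1)
    rw [h6, extd_fn (hdiff t)] at h5
    change (fderiv ℝ (fun t => ptv a (c t)) t) 1 = 0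
    rw [dx_eq_zero h5]
    rfl
  exact is_const_of_deriv_eq_zero hdiff h4 s t

theorem const_of_closed (hc : SConn D) {a : Form D} (h0 : IsDeg a 0) (hd : a.d = 0) (v₀ : X) :
    a = algebraMap ℝ (Form D) (ptv a v₀) := Form.ext_val fun E _ _ _ u x h => by
  rw [val_of_isDeg_zero h0 h, ptv_const hc h0 hd (u x) v₀, Algebra.algebraMap_eq_smul_one,
    Algebra.algebraMap_eq_smul_one, Form.smul_val, Form.one_val h]

end Abstract

/-! ### the unit tangent bundle -/

variable {E : Type*} [NormedAddCommGroup E] [NormedSpace ℝ E] [FiniteDimensional ℝ E]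
  {M : Type*} [MetricSpace M] [ChartedSpace E M] [IsManifold 𝓘(ℝ, E) ∞ M]
  [RiemannianBundle (fun x : M => TangentSpace 𝓘(ℝ, E) x)]
  [IsContMDiffRiemannianBundle 𝓘(ℝ, E) ∞ E (fun x : M => TangentSpace 𝓘(ℝ, E) x)]
  {e : ∀ x : M, TangentSpace 𝓘(ℝ, E) x → M}

variable (E M) in
theorem dimEq_M {m : ℕ} (hm : finrank ℝ E = m) : DimEq (dM E M) m := dimEq_mfd hm

variable (E M) in
theorem dimLE_M {m : ℕ} (hm : finrank ℝ E = m) : DimLE (dM E M) m := dimLE_mfd hm

variable (E M) in
theorem dimEq_UT {m : ℕ} (hm : finrank ℝ E = m + 1) : DimEq (dUT E M) (2 * m + 1) :=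
  dimEq_uset hm

variable (E M) in
theorem dimLE_UT {m : ℕ} (hm : finrank ℝ E = m + 1) : DimLE (dUT E M) (2 * m + 1) :=
  dimLE_uset hm

/-- the unit circle in the plane of two orthonormal vectors -/
theorem nm_circle (x : M) {u z : E} (hu : nm x u = 1) (hz : nm x z = 1)
    (huz : @inner ℝ (TangentSpace 𝓘(ℝ, E) x) _ u z = 0) (t : ℝ) :
    nm x (Real.cos t • u + Real.sin t • z) = 1 := by
  let u' : TangentSpace 𝓘(ℝ, E) x := u
  let z' : TangentSpace 𝓘(ℝ, E) x := z
  have hu' : ‖u'‖ = 1 := hu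
  have hz' : ‖z'‖ = 1 := hz
  have huz' : (inner ℝ u' z' : ℝ) = 0 := huz
  change ‖Real.cos t • u' + Real.sin t • z'‖ = 1
  have h1 : ‖Real.cos t • u' + Real.sin t • z'‖ ^ 2 = 1 := by
    rw [norm_add_sq_real, norm_smul, norm_smul, inner_smul_left, inner_smul_right, huz', hu', hz',
      mul_one, mul_one, Real.norm_eq_abs, Real.norm_eq_abs, sq_abs, sq_abs]
    simp
  nlinarith only [h1, norm_nonneg (Real.cos t • u' + Real.sin t • z')]

theorem circle_smV (x : M) (u z : TangentSpace 𝓘(ℝ, E) x) (t : ℝ) :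
    SmV (V := ℝ) (fun _ => x) (fun t => Real.cos t • u + Real.sin t • z) t := by
  rw [smV_iff x (mem_extChartAt_source x)]
  refine ⟨contMDiffAt_const, ?_⟩
  have h1 : ContDiffAt ℝ ∞ (fun t : ℝ => Real.cos t • crd x x u + Real.sin t • crd x x z) t :=
    ((Real.contDiff_cos.contDiffAt).smul contDiffAt_const).add
      ((Real.contDiff_sin.contDiffAt).smul contDiffAt_const)
  refine h1.congr_of_eventuallyEq (Filter.Eventually.of_forall fun t => ?_)
  simp only [map_add, map_smul]

/-- the rotation from `u` to `z` is a smooth curve in the unit tangent bundle -/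
theorem circle_at (x : M) {u z : E} (hu : nm x u = 1) (hz : nm x z = 1)
    (huz : @inner ℝ (TangentSpace 𝓘(ℝ, E) x) _ u z = 0) (t : ℝ) :
    (dUT E M).At (fun t : ℝ => W.mk x (Real.cos t • u + Real.sin t • z) (nm_circle x hu hz huz t))
      t :=
  Filter.Eventually.of_forall fun t => circle_smV x (u : TangentSpace 𝓘(ℝ, E) x) z t

/-- constant curves are smooth -/
theorem const_at (v : UT E M) (t : ℝ) :
    (dUT E M).At (fun _ : ℝ => v) t := by
  have h1 : (dTM E M).At (fun _ : ℝ => v.1) t :=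
    Filter.Eventually.of_forall fun t => contMDiffAt_const
  exact h1

theorem exists_orth (h2 : 2 ≤ finrank ℝ E) (x : M) (u : TangentSpace 𝓘(ℝ, E) x) :
    ∃ z : TangentSpace 𝓘(ℝ, E) x, ‖z‖ = 1 ∧ (inner ℝ u z : ℝ) = 0 := by
  have h3 : finrank ℝ ℝ < finrank ℝ (⊤ : Submodule ℝ (TangentSpace 𝓘(ℝ, E) x)) := by
    rw [finrank_top, finrank_self]
    exact h2
  obtain ⟨z, _, hz1, hz2⟩ := exists_unit_ker (⊤ : Submodule ℝ (TangentSpace 𝓘(ℝ, E) x))
    ((innerSL ℝ u : TangentSpace 𝓘(ℝ, E) x →L[ℝ] ℝ) : TangentSpace 𝓘(ℝ, E) x →ₗ[ℝ] ℝ) h3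
  exact ⟨z, hz1, hz2⟩

/-- functions constant along smooth curves are constant on the unit spheres -/
theorem conn_sphere (h2 : 2 ≤ finrank ℝ E) {α : Type*} (f : UT E M → α)
    (h : ∀ c : ℝ → UT E M, (∀ t, (dUT E M).At c t) → ∀ s t, f (c s) = f (c t)) (x : M) (u w : E)
    (hu : nm x u = 1) (hw : nm x w = 1) : f (W.mk x u hu) = f (W.mk x w hw) := by
  let u' : TangentSpace 𝓘(ℝ, E) x := u
  let w' : TangentSpace 𝓘(ℝ, E) x := w
  have hu' : ‖u'‖ = 1 := hu
  have hw' : ‖w'‖ = 1 := hw
  -- it suffices to find a unit vector orthogonal to `u` and an angle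
  have key : ∀ (z : E) (θ : ℝ), nm x z = 1 →
      @inner ℝ (TangentSpace 𝓘(ℝ, E) x) _ u z = 0 →
      w = Real.cos θ • u + Real.sin θ • z → f (W.mk x u hu) = f (W.mk x w hw) := by
    intro z θ hz huz hwz
    have h3 := h (fun t : ℝ => W.mk x (Real.cos t • u + Real.sin t • z)
      (nm_circle x hu hz huz t)) (circle_at x hu hz huz) 0 θ
    refine Eq.trans ?_ (h3.trans ?_)
    · refine congrArg f (mk_congr rfl ?_)
      rw [Real.cos_zero, Real.sin_zero, one_smul, zero_smul, add_zero]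
    · exact congrArg f (mk_congr rfl hwz.symm)
  obtain ⟨z₀, hz₀, huz₀⟩ := exists_orth h2 x u'
  set c : ℝ := inner ℝ u' w' with hc
  set r : TangentSpace 𝓘(ℝ, E) x := w' - c • u' with hr
  have hur : (inner ℝ u' r : ℝ) = 0 := by
    rw [hr, inner_sub_right, inner_smul_right, real_inner_self_eq_norm_sq, hu', ← hc]
    ring
  have hw_eq : w' = c • u' + r := by rw [hr]; abel
  have hsq : c ^ 2 + ‖r‖ ^ 2 = 1 := by
    have h3 : ‖w'‖ ^ 2 = c ^ 2 + ‖r‖ ^ 2 := by
      rw [hw_eq, norm_add_sq_real, inner_smul_left, hur, norm_smul, hu', mul_one,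
        Real.norm_eq_abs, sq_abs]
      simp
    rw [← h3, hw', one_pow]
  by_cases hr0 : r = 0
  · rw [hr0, norm_zero] at hsq
    have hc1 : c = 1 ∨ c = -1 := by
      have : (c - 1) * (c + 1) = 0 := by nlinarith only [hsq]
      rcases mul_eq_zero.1 this with h3 | h3
      · left; linarith only [h3]
      · right; linarith only [h3]
    rcases hc1 with h3 | h3
    · refine key z₀ 0 hz₀ huz₀ ?_
      change w' = Real.cos 0 • u' + Real.sin 0 • z₀
      rw [Real.cos_zero, Real.sin_zero, one_smul, zero_smul, add_zero, hw_eq, hr0, h3, one_smul,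
        add_zero]
    · refine key z₀ Real.pi hz₀ huz₀ ?_
      change w' = Real.cos Real.pi • u' + Real.sin Real.pi • z₀
      rw [Real.cos_pi, Real.sin_pi, zero_smul, add_zero, hw_eq, hr0, h3, add_zero]
  · have hrn : ‖r‖ ≠ 0 := norm_ne_zero_iff.2 hr0
    refine key (‖r‖⁻¹ • r) (Real.arccos c) ?_ ?_ ?_
    · change ‖‖r‖⁻¹ • r‖ = 1
      rw [norm_smul, norm_inv, norm_norm, inv_mul_cancel₀ hrn]
    · change (inner ℝ u' (‖r‖⁻¹ • r) : ℝ) = 0
      rw [inner_smul_right, hur, mul_zero]
    · change w' = Real.cos (Real.arccos c) • u' + Real.sin (Real.arccos c) • (‖r‖⁻¹ • r)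
      have hc1 : -1 ≤ c := by nlinarith only [hsq, sq_nonneg ‖r‖]
      have hc2 : c ≤ 1 := by nlinarith only [hsq, sq_nonneg ‖r‖]
      have h3 : Real.sin (Real.arccos c) = ‖r‖ := by
        rw [Real.sin_arccos]
        have : 1 - c ^ 2 = ‖r‖ ^ 2 := by linarith only [hsq]
        rw [this, Real.sqrt_sq (norm_nonneg _)]
      rw [Real.cos_arccos hc1 hc2, h3, smul_smul, mul_inv_cancel₀ hrn, one_smul]
      exact hw_eq

variable [CompactSpace M] [ConnectedSpace M] [IsRiemannianManifold 𝓘(ℝ, E) M]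

/-- the unit tangent bundle is smoothly connected -/
theorem sConn_UT (F : Facts e) (h2 : 2 ≤ finrank ℝ E) : SConn (dUT E M) := by
  intro α f h v w
  obtain ⟨a, ha, had⟩ := F.hopfRinow (foot v) (foot w)
  by_cases hxy : foot v = foot w
  · have h3 := conn_sphere h2 f h (foot v) (vec' v) (vec' w) v.2 (by rw [hxy]; exact w.2)
    refine h3.trans (congrArg f ?_)
    exact mk_congr hxy rfl
  · have hn : ‖a‖ ≠ 0 := by
      rw [← had]
      exact (dist_pos.2 hxy).ne'
    obtain ⟨u, hu⟩ : ∃ u : E, u = ‖a‖⁻¹ • a := ⟨_, rfl⟩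
    have hu1 : nm (foot v) u = 1 := by
      rw [hu]
      change ‖‖a‖⁻¹ • a‖ = 1
      rw [norm_smul, norm_inv, norm_norm, inv_mul_cancel₀ hn]
    have h3 : f v = f (W.mk (foot v) u hu1) :=
      conn_sphere h2 f h (foot v) (vec' v) u v.2 hu1
    have h4 : f (W.mk (foot v) u hu1) = f (phi F (W.mk (foot v) u hu1, ‖a‖)) := by
      have h5 := h (fun t : ℝ => phi F (W.mk (foot v) u hu1, t)) (fun t => by
        refine map_phi F (u := fun t : ℝ => (W.mk (foot v) u hu1, t)) ?_
        exact ⟨const_at _ t, Sm.of_contDiff contDiff_id _⟩) 0 ‖a‖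
      rw [phi_zero] at h5
      exact h5
    have h5 : foot (phi F (W.mk (foot v) u hu1, ‖a‖)) = foot w := by
      rw [foot_phi]
      change e (foot v) (‖a‖ • u : E) = foot w
      have h6 : (‖a‖ • u : E) = a := by
        rw [hu]
        change ‖a‖ • (‖a‖⁻¹ • a) = a
        rw [smul_smul, mul_inv_cancel₀ hn, one_smul]
      rw [h6, ha]
    rw [h3, h4]
    have h6 := conn_sphere h2 f h (foot (phi F (W.mk (foot v) u hu1, ‖a‖)))
      (vec' (phi F (W.mk (foot v) u hu1, ‖a‖))) (vec' w)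
      (phi F (W.mk (foot v) u hu1, ‖a‖)).2 (by rw [h5]; exact w.2)
    refine h6.trans (congrArg f ?_)
    exact mk_congr h5 rfl

end

end Vale.Agent.P231.WF
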