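import Vale.Agent.P231.WF.Deg
import Vale.Agent.P231.H775.SmV

/-!
# P231, block F1: dimension of the manifold and of the unit tangent bundle
-/

set_option maxSynthPendingDepth 3
set_option linter.unusedSectionVars false
set_option linter.unusedVariables false

open Bundle Manifold Set Filter Module Topology
open scoped ContDiff Manifold Topology

namespace Vale.Agent.P231.WF

open Vale.Agent.P231.Fm Vale.Agent.P231.H775 Vale.Agent.P234

noncomputable section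

/-! ### charts of a manifold -/

section Mfd

variable {E : Type*} [NormedAddCommGroup E] [NormedSpace ℝ E] [FiniteDimensional ℝ E]
  {M : Type*} [TopologicalSpace M] [ChartedSpace E M] [IsManifold 𝓘(ℝ, E) ∞ M]

theorem dimEq_mfd {m : ℕ} (hm : finrank ℝ E = m) : DimEq (Dif.mfd 𝓘(ℝ, E) M) m := by
  intro E' _ _ _ u x hu
  let φ : E ≃L[ℝ] EuclideanSpace ℝ (Fin m) :=
    ContinuousLinearEquiv.ofFinrankEq (by rw [finrank_euclideanSpace, Fintype.card_fin, hm])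
  have hux : ContMDiffAt 𝓘(ℝ, E') 𝓘(ℝ, E) ∞ u x := Filter.Eventually.self_of_nhds hu
  have hsrc : ∀ᶠ y in 𝓝 x, u y ∈ (extChartAt 𝓘(ℝ, E) (u x)).source :=
    hux.continuousAt.eventually ((isOpen_extChartAt_source (I := 𝓘(ℝ, E)) (u x)).mem_nhds
      (mem_extChartAt_source (u x)))
  refine ⟨fun z => (extChartAt 𝓘(ℝ, E) (u x)).symm (φ.symm z),
    fun y => φ (extChartAt 𝓘(ℝ, E) (u x) (u y)), ?_, ?_, ?_⟩
  · have h1 : Sm (fun y => extChartAt 𝓘(ℝ, E) (u x) (u y)) x := by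
      filter_upwards [hu, hsrc] with y h1 h2
      rw [extChartAt_source] at h2
      exact ((contMDiffAt_extChartAt' h2).comp y h1).contDiffAt
    exact Sm.comp (f := φ) (Sm.of_contDiff φ.contDiff _) h1
  · have h2 : ∀ᶠ z in 𝓝 (φ (extChartAt 𝓘(ℝ, E) (u x) (u x))),
        φ.symm z ∈ (extChartAt 𝓘(ℝ, E) (u x)).target := by
      refine φ.symm.continuous.continuousAt.eventually ?_
      rw [φ.symm_apply_apply]
      exact extChartAt_target_mem_nhds (u x)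
    have h3 : ∀ᶠ z in 𝓝 (φ (extChartAt 𝓘(ℝ, E) (u x) (u x))), ContMDiffAt
        𝓘(ℝ, EuclideanSpace ℝ (Fin m)) 𝓘(ℝ, E) ∞
        (fun z => (extChartAt 𝓘(ℝ, E) (u x)).symm (φ.symm z)) z := by
      filter_upwards [h2] with z hz
      have h4 : ContMDiffAt 𝓘(ℝ, E) 𝓘(ℝ, E) ∞ (extChartAt 𝓘(ℝ, E) (u x)).symm (φ.symm z) :=
        (contMDiffOn_extChartAt_symm (u x)).contMDiffAt
          ((isOpen_extChartAt_target (u x)).mem_nhds hz)
      exact h4.comp z (φ.symm.contDiff.contDiffAt.contMDiffAt)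
    exact h3
  · filter_upwards [hsrc] with y hy
    simp only [Function.comp_apply, φ.symm_apply_apply]
    exact ((extChartAt 𝓘(ℝ, E) (u x)).left_inv hy).symm

theorem dimLE_mfd {m : ℕ} (hm : finrank ℝ E = m) : DimLE (Dif.mfd 𝓘(ℝ, E) M) m :=
  DimEq.dimLE (dimEq_mfd hm)

end Mfd

/-! ### the unit tangent bundle -/

section UM

variable {E : Type*} [NormedAddCommGroup E] [NormedSpace ℝ E] [FiniteDimensional ℝ E]
  {M : Type*} [MetricSpace M] [ChartedSpace E M] [IsManifold 𝓘(ℝ, E) ∞ M]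
  [RiemannianBundle (fun x : M => TangentSpace 𝓘(ℝ, E) x)]
  [IsContMDiffRiemannianBundle 𝓘(ℝ, E) ∞ E (fun x : M => TangentSpace 𝓘(ℝ, E) x)]

variable (E M) in
/-- the unit tangent bundle, as a set -/
def uset : Set (TangentBundle 𝓘(ℝ, E) M) := {v | ‖v.2‖ = 1}

variable (E M) in
/-- the diffeology of the unit tangent bundle -/
def dU : Dif (uset E M) := (Dif.mfd 𝓘(ℝ, E).tangent (TangentBundle 𝓘(ℝ, E) M)).sub (uset E M)

theorem smV_norm_inv {V : Type*} [NormedAddCommGroup V] [NormedSpace ℝ V] {f : V → M}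
    {u : ∀ s, TangentSpace 𝓘(ℝ, E) (f s)} {s : V} (hu : SmV f u s) (h0 : u s ≠ 0) :
    ContDiffAt ℝ ∞ (fun s => ‖u s‖⁻¹) s := by
  have h1 := hu.norm_sq
  have h2 : ‖u s‖ ^ 2 ≠ 0 := pow_ne_zero 2 (norm_ne_zero_iff.2 h0)
  have h3 := (h1.sqrt h2).inv (by rw [Real.sqrt_sq (norm_nonneg _)]; exact norm_ne_zero_iff.2 h0)
  refine h3.congr_of_eventuallyEq (Filter.Eventually.of_forall fun s => ?_)
  change ‖u s‖⁻¹ = (Real.sqrt (‖u s‖ ^ 2))⁻¹
  rw [Real.sqrt_sq (norm_nonneg _)]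

theorem smV_normalize {V : Type*} [NormedAddCommGroup V] [NormedSpace ℝ V] {f : V → M}
    {u : ∀ s, TangentSpace 𝓘(ℝ, E) (f s)} {s : V} (hu : SmV f u s) (h0 : u s ≠ 0) :
    SmV f (fun s => ‖u s‖⁻¹ • u s) s := SmV.smul (smV_norm_inv hu h0) hu

theorem exists_normalize {F : Type*} [NormedAddCommGroup F] [NormedSpace ℝ F] {ξ : F} (h : ξ ≠ 0) :
    ∃ l : F →L[ℝ] ℝ, l ξ = 1 := by
  have h1 : ‖ξ‖ ≠ 0 := norm_ne_zero_iff.2 h
  obtain ⟨g, _, hg⟩ := exists_dual_vector ℝ ξ h1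
  refine ⟨(‖ξ‖⁻¹ : ℝ) • g, ?_⟩
  have h2 : g ξ = ‖ξ‖ := by simpa using hg
  rw [smul_apply, h2, smul_eq_mul, inv_mul_cancel₀ h1]

open Classical in
theorem dimEq_uset {m : ℕ} (hm : finrank ℝ E = m + 1) : DimEq (dU E M) (2 * m + 1) := by
  intro E' _ _ _ u x hu
  have hu' : ∀ᶠ s in 𝓝 x, SmV (fun s => (u s).1.1) (fun s => (u s).1.2) s := hu
  have hux : SmV (fun s => (u s).1.1) (fun s => (u s).1.2) x := hu'.self_of_nhds
  set x₀ : M := (u x).1.1 with hx₀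
  have hsrcx : x₀ ∈ (extChartAt 𝓘(ℝ, E) x₀).source := mem_extChartAt_source x₀
  have hsrc : ∀ᶠ s in 𝓝 x, (u s).1.1 ∈ (extChartAt 𝓘(ℝ, E) x₀).source :=
    hux.base.continuousAt.eventually ((isOpen_extChartAt_source (I := 𝓘(ℝ, E)) x₀).mem_nhds hsrcx)
  set ξ : E' → E := fun s => crd x₀ (u s).1.1 (u s).1.2 with hξ
  have hξs : ∀ᶠ s in 𝓝 x, ContDiffAt ℝ ∞ ξ s := by
    filter_upwards [hu', hsrc] with s h1 h2
    exact ((smV_iff (f := fun s => (u s).1.1) (u := fun s => (u s).1.2) x₀ h2).1 h1).2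
  have hn1 : ∀ s, ‖(u s).1.2‖ = 1 := fun s => (u s).2
  have hξ0 : ξ x ≠ 0 := by
    intro h
    have h1 : vec x₀ (u x).1.1 (ξ x) = (u x).1.2 := vec_crd x₀ hsrcx (u x).1.2
    have h2 := hn1 x
    rw [← h1, h, map_zero, norm_zero] at h2
    exact zero_ne_one h2
  obtain ⟨l, hl⟩ := exists_normalize hξ0
  have hK : finrank ℝ (LinearMap.ker (l : E →ₗ[ℝ] ℝ)) = m := by
    have h1 := LinearMap.finrank_range_add_finrank_ker (l : E →ₗ[ℝ] ℝ)
    have h2 : LinearMap.range (l : E →ₗ[ℝ] ℝ) = ⊤ := by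
      rw [LinearMap.range_eq_top]
      intro r
      refine ⟨r • ξ x, ?_⟩
      change l (r • ξ x) = r
      rw [map_smul, hl, smul_eq_mul, mul_one]
    rw [h2, finrank_top, finrank_self, hm] at h1
    omega
  set K := LinearMap.ker (l : E →ₗ[ℝ] ℝ) with hKdef
  let φ : (E × K) ≃L[ℝ] EuclideanSpace ℝ (Fin (2 * m + 1)) :=
    ContinuousLinearEquiv.ofFinrankEq (by
      rw [finrank_euclideanSpace, Fintype.card_fin, finrank_prod, hK, hm]
      ring)
  -- the coordinates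
  have hker : ∀ s, (l (ξ s))⁻¹ • ξ s - ξ x ∈ K ∨ l (ξ s) = 0 := by
    intro s
    by_cases h : l (ξ s) = 0
    · exact Or.inr h
    · left
      rw [hKdef, LinearMap.mem_ker]
      change l ((l (ξ s))⁻¹ • ξ s - ξ x) = 0
      rw [map_sub, map_smul, hl, smul_eq_mul, inv_mul_cancel₀ h, sub_self]
  -- projection to the kernel along `ξ x`
  let pr : E →L[ℝ] K := LinearMap.toContinuousLinearMap
    (LinearMap.codRestrict K (LinearMap.id - (l : E →ₗ[ℝ] ℝ).smulRight (ξ x)) (fun v => by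
      rw [hKdef, LinearMap.mem_ker]
      change l (v - l v • ξ x) = 0
      rw [map_sub, map_smul, hl, smul_eq_mul, mul_one, sub_self]))
  have hpr : ∀ v, ((pr v : K) : E) = v - l v • ξ x := fun v => rfl
  let W : (E × K) → TangentBundle 𝓘(ℝ, E) M := fun p =>
    ⟨(extChartAt 𝓘(ℝ, E) x₀).symm p.1,
      ‖vec x₀ ((extChartAt 𝓘(ℝ, E) x₀).symm p.1) (ξ x + (p.2 : E))‖⁻¹ •
        vec x₀ ((extChartAt 𝓘(ℝ, E) x₀).symm p.1) (ξ x + (p.2 : E))⟩
  let c : EuclideanSpace ℝ (Fin (2 * m + 1)) → uset E M := fun z =>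
    if h : ‖(W (φ.symm z)).2‖ = 1 then ⟨W (φ.symm z), h⟩ else u x
  let g : E' → EuclideanSpace ℝ (Fin (2 * m + 1)) := fun s =>
    φ (extChartAt 𝓘(ℝ, E) x₀ (u s).1.1, pr ((l (ξ s))⁻¹ • ξ s))
  have hlξ : ContinuousAt (fun s => l (ξ s)) x :=
    l.continuous.continuousAt.comp hξs.self_of_nhds.continuousAt
  have hlpos : ∀ᶠ s in 𝓝 x, 0 < l (ξ s) :=
    hlξ.eventually (lt_mem_nhds (by change 0 < l (ξ x); rw [hl]; exact zero_lt_one))
  have hprx : pr ((l (ξ x))⁻¹ • ξ x) = 0 := by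
    refine Subtype.ext ?_
    rw [hpr, hl, inv_one, one_smul, hl, one_smul, sub_self]
    rfl
  have hgx : φ.symm (g x) = (extChartAt 𝓘(ℝ, E) x₀ x₀, 0) := by
    simp only [g]
    rw [φ.symm_apply_apply, hprx]
  refine ⟨c, g, ?_, ?_, ?_⟩
  · -- smoothness of the coordinates
    have h1 : Sm (fun s => extChartAt 𝓘(ℝ, E) x₀ (u s).1.1) x := by
      filter_upwards [hu', hsrc] with s h1 h2
      exact ((contMDiffAt_extChartAt' (exm_mem_source h2)).comp s h1.base).contDiffAt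
    have h2 : Sm (fun s => pr ((l (ξ s))⁻¹ • ξ s)) x := by
      filter_upwards [hξs, hlpos] with s h1 h2
      have h3 : ContDiffAt ℝ ∞ (fun s => l (ξ s)) s := l.contDiff.contDiffAt.comp s h1
      exact pr.contDiff.contDiffAt.comp s ((h3.inv h2.ne').smul h1)
    exact Sm.comp (f := φ) (Sm.of_contDiff φ.contDiff _) (h1.prodMk h2)
  · -- the parametrisation is a plot
    have htgt : ∀ᶠ p in 𝓝 ((extChartAt 𝓘(ℝ, E) x₀ x₀, 0) : E × K),
        p.1 ∈ (extChartAt 𝓘(ℝ, E) x₀).target := by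
      have h1 : Tendsto (Prod.fst : E × K → E) (𝓝 (extChartAt 𝓘(ℝ, E) x₀ x₀, 0))
          (𝓝 (extChartAt 𝓘(ℝ, E) x₀ x₀)) := continuous_fst.tendsto' _ _ rfl
      exact h1 (extChartAt_target_mem_nhds x₀)
    have hsm : ∀ᶠ p in 𝓝 ((extChartAt 𝓘(ℝ, E) x₀ x₀, 0) : E × K),
        SmV (fun p : E × K => (extChartAt 𝓘(ℝ, E) x₀).symm p.1)
          (fun p => vec x₀ ((extChartAt 𝓘(ℝ, E) x₀).symm p.1) (ξ x + (p.2 : E))) p := by
      have h1 : ∀ᶠ p in 𝓝 ((extChartAt 𝓘(ℝ, E) x₀ x₀, 0) : E × K),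
          p.1 ∈ (extChartAt 𝓘(ℝ, E) x₀).target := htgt
      filter_upwards [h1] with p hp
      refine smV_vec (V := E × K) (f := fun p : E × K => (extChartAt 𝓘(ℝ, E) x₀).symm p.1) x₀
        ((extChartAt 𝓘(ℝ, E) x₀).map_target hp) ?_ ?_
      · have h4 : ContMDiffAt 𝓘(ℝ, E) 𝓘(ℝ, E) ∞ (extChartAt 𝓘(ℝ, E) x₀).symm p.1 :=
          (contMDiffOn_extChartAt_symm x₀).contMDiffAt
            ((isOpen_extChartAt_target x₀).mem_nhds hp)
        exact h4.comp p contDiffAt_fst.contMDiffAt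
      · exact contDiffAt_const.add (K.subtypeL.contDiff.contDiffAt.comp p contDiffAt_snd)
    have hne : ∀ᶠ p in 𝓝 ((extChartAt 𝓘(ℝ, E) x₀ x₀, 0) : E × K),
        vec x₀ ((extChartAt 𝓘(ℝ, E) x₀).symm p.1) (ξ x + (p.2 : E)) ≠ 0 := by
      have h1 : ∀ᶠ p in 𝓝 ((extChartAt 𝓘(ℝ, E) x₀ x₀, 0) : E × K),
          p.1 ∈ (extChartAt 𝓘(ℝ, E) x₀).target := htgt
      filter_upwards [h1] with p hp h0
      have h2 := crd_vec x₀ ((extChartAt 𝓘(ℝ, E) x₀).map_target hp) (ξ x + (p.2 : E))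
      rw [h0, map_zero] at h2
      have h3 : l (ξ x + (p.2 : E)) = 1 := by
        have h4 : l (p.2 : E) = 0 := p.2.2
        rw [map_add, hl, h4, add_zero]
      rw [← h2, map_zero] at h3
      exact zero_ne_one h3
    have hW : ∀ᶠ p in 𝓝 ((extChartAt 𝓘(ℝ, E) x₀ x₀, 0) : E × K),
        ContMDiffAt 𝓘(ℝ, E × K) 𝓘(ℝ, E).tangent ∞ W p ∧ ‖(W p).2‖ = 1 := by
      filter_upwards [hsm, hne] with p h1 h2
      refine ⟨smV_normalize h1 h2, ?_⟩
      change ‖‖_‖⁻¹ • _‖ = 1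
      rw [norm_smul, norm_inv, norm_norm, inv_mul_cancel₀ (norm_ne_zero_iff.2 h2)]
    have hWz : ∀ᶠ z in 𝓝 (g x), ContMDiffAt 𝓘(ℝ, E × K) 𝓘(ℝ, E).tangent ∞ W (φ.symm z) ∧
        ‖(W (φ.symm z)).2‖ = 1 := by
      have h1 : Tendsto (fun z => φ.symm z) (𝓝 (g x))
          (𝓝 ((extChartAt 𝓘(ℝ, E) x₀ x₀, 0) : E × K)) := by
        rw [← hgx]
        exact φ.symm.continuous.continuousAt
      exact h1.eventually hW
    have hcz : ∀ᶠ z in 𝓝 (g x), ContMDiffAt 𝓘(ℝ, EuclideanSpace ℝ (Fin (2 * m + 1)))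
        𝓘(ℝ, E).tangent ∞ (fun z => (c z).1) z := by
      filter_upwards [hWz, hWz.eventually_nhds] with z h1 h2
      have h3 : ContMDiffAt 𝓘(ℝ, EuclideanSpace ℝ (Fin (2 * m + 1))) 𝓘(ℝ, E).tangent ∞
          (fun z => W (φ.symm z)) z := h1.1.comp z (φ.symm.contDiff.contDiffAt.contMDiffAt)
      refine h3.congr_of_eventuallyEq ?_
      filter_upwards [h2] with z' h4
      simp only [c]
      rw [dif_pos h4.2]
    exact hcz
  · -- factorisation
    filter_upwards [hsrc, hlpos] with s h1 h2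
    have h3 : φ.symm (g s) = (extChartAt 𝓘(ℝ, E) x₀ (u s).1.1, pr ((l (ξ s))⁻¹ • ξ s)) :=
      φ.symm_apply_apply _
    have h4 : ξ x + ((pr ((l (ξ s))⁻¹ • ξ s) : K) : E) = (l (ξ s))⁻¹ • ξ s := by
      rw [hpr, map_smul, smul_eq_mul, inv_mul_cancel₀ h2.ne', one_smul]
      abel
    have h5 : W (φ.symm (g s)) = (u s).1 := by
      rw [h3]
      simp only [W]
      rw [h4, (extChartAt 𝓘(ℝ, E) x₀).left_inv h1, map_smul, vec_crd x₀ h1, norm_smul, hn1,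
        mul_one, norm_inv, Real.norm_of_nonneg h2.le, _root_.inv_inv, smul_smul,
        mul_inv_cancel₀ h2.ne', one_smul]
    have h6 : ‖(W (φ.symm (g s))).2‖ = 1 := by
      rw [h5]
      exact (u s).2
    refine Subtype.ext ?_
    change (u s).1 = (c (g s)).1
    simp only [c]
    rw [dif_pos h6]
    exact h5.symm

theorem dimLE_uset {m : ℕ} (hm : finrank ℝ E = m + 1) : DimLE (dU E M) (2 * m + 1) :=
  DimEq.dimLE (dimEq_uset hm)

end UM

end

end Vale.Agent.P231.WF
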