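import Vale.Agent.P231.WF.Top
import Vale.Agent.P231.H766.Uec5
import Vale.Agent.P231.WD.GeoInst

/-!
# P231, block F1: the circle action of the geodesic flow and the equivariant contraction on `UM`
-/

set_option maxSynthPendingDepth 3
set_option linter.unusedSectionVars false
set_option linter.unusedVariables false

open Bundle Manifold Set Filter Module MeasureTheory
open scoped ContDiff Manifold Topology ENNReal

namespace Vale.Agent.P231.WF

noncomputable section

open Vale.Agent.P231.Fm Vale.Agent.P234 Vale.Agent.P231 Vale.Agent.P231.W Vale.Agent.P231.H775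
  Vale.Agent.P231.H766

attribute [local instance] topUT

variable {E : Type*} [NormedAddCommGroup E] [NormedSpace ℝ E] [FiniteDimensional ℝ E]
  {M : Type*} [MetricSpace M] [ChartedSpace E M] [IsManifold 𝓘(ℝ, E) ∞ M]
  [RiemannianBundle (fun x : M => TangentSpace 𝓘(ℝ, E) x)]
  [IsContMDiffRiemannianBundle 𝓘(ℝ, E) ∞ E (fun x : M => TangentSpace 𝓘(ℝ, E) x)]
  {e : ∀ x : M, TangentSpace 𝓘(ℝ, E) x → M}
  [CompactSpace M] [ConnectedSpace M] [IsRiemannianManifold 𝓘(ℝ, E) M]

/-- the circle action of the geodesic flow, rescaled to period one -/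
def actUT (F : Facts e) {D : ℝ} (hD : 0 < D) (hB : InjGE e D)
    (hdiam : ∀ p q : M, dist p q ≤ D) : CAct (dUT E M) where
  φ v t := phi F (v, 2 * D * t)
  smooth := fun {E'} _ _ _ {u x} h => map_phi F (map_scale (D := dUT E M) (2 * D) h)
  zero v := by rw [mul_zero, phi_zero]
  add v s t := by rw [phi_add, mul_add]
  per v := by rw [mul_one, phi_per F hD hB hdiam]

/-- the distance travelled along a closed geodesic -/
theorem dist_gm (F : Facts e) {D : ℝ} (hD : 0 < D) (hB : InjGE e D)
    (hdiam : ∀ p q : M, dist p q ≤ D) (v : UT E M) {t : ℝ} (h0 : 0 ≤ t) (h1 : t ≤ 2 * D) :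
    dist (foot v) (gm e (v, t)) = min t (2 * D - t) := by
  rcases le_total t D with h | h
  · have h2 := nm_smul (E := E) (foot v) (vec' v) t
    rw [nm_vec' v, mul_one, abs_of_nonneg h0] at h2
    have h3 := hB (foot v) (t • vec' v : E) (h2.le.trans h)
    rw [min_eq_left (by linarith)]
    exact h3.trans h2
  · have h2 := nm_smul (E := E) (foot v) (vec' v) (t - 2 * D)
    rw [nm_vec' v, mul_one, abs_of_nonpos (by linarith)] at h2
    have h3 := hB (foot v) ((t - 2 * D) • vec' v : E) (h2.le.trans (by linarith))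
    have h4 : gm e (v, t) = gm e (v, t - 2 * D) := by
      have h5 := gm_phi F v (2 * D) (t - 2 * D)
      rw [phi_per F hD hB hdiam, add_sub_cancel] at h5
      exact h5.symm
    rw [min_eq_right (by linarith), h4]
    refine (h3.trans h2).trans (by ring)

/-- a bump function of the footpoint has a nonzero first Fourier coefficient -/
theorem fou_ne (F : Facts e) {D : ℝ} (hD : 0 < D) (hB : InjGE e D)
    (hdiam : ∀ p q : M, dist p q ≤ D) (v : UT E M) :
    ∃ f : UT E M → ℝ, (dUT E M).Map (Dif.lin ℝ) f ∧ fou (actUT F hD hB hdiam) f v ≠ 0 := by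
  -- a bump function supported in the ball of radius `D / 4`
  obtain ⟨ρ, -, hρ⟩ := (SmoothBumpFunction.nhds_basis_tsupport (I := 𝓘(ℝ, E)) (foot v)).mem_iff.1
    (Metric.ball_mem_nhds (foot v) (show 0 < D / 4 by positivity))
  have hρs : ContMDiff 𝓘(ℝ, E) 𝓘(ℝ, ℝ) ∞ (ρ : M → ℝ) := ρ.contMDiff
  have hρ1 : ρ (foot v) = 1 := ρ.eq_one
  have hρ0 : ∀ y : M, 0 ≤ ρ y := fun y => ρ.nonneg
  have hρ2 : ∀ y : M, D / 4 ≤ dist (foot v) y → ρ y = 0 := by
    intro y hy
    by_contra h
    have h1 := hρ (subset_tsupport _ (Function.mem_support.2 h))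
    rw [Metric.mem_ball, dist_comm] at h1
    exact absurd hy (not_le.2 h1)
  refine ⟨fun w => ρ (foot w), fun {E'} _ _ _ {u x} h =>
    Dif.map_mfd_lin hρs (map_foot h), ?_⟩
  -- the real part of the Fourier coefficient is positive
  have hc : Continuous fun t : ℝ => gm e (v, t) := by
    have h1 := continuous_of_map_dUT_prod (plotsCont_dM E M) (map_gm F)
    exact h1.comp (Continuous.prodMk_right v)
  have hc2 : Continuous fun t : ℝ => ρ (gm e (v, 2 * D * t)) :=
    hρs.continuous.comp (hc.comp (continuous_const.mul continuous_id))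
  have hcos : Continuous fun t : ℝ => Real.cos (2 * Real.pi * t) :=
    Real.continuous_cos.comp (continuous_const.mul continuous_id)
  have hpos : 0 < ∫ t in (0 : ℝ)..1, ρ (gm e (v, 2 * D * t)) * Real.cos (2 * Real.pi * t) := by
    refine intervalIntegral.integral_pos one_pos (hc2.mul hcos).continuousOn ?_
      ⟨0, ⟨le_rfl, zero_le_one⟩, ?_⟩
    · intro t ht
      by_cases h : ρ (gm e (v, 2 * D * t)) = 0
      · rw [h, zero_mul]
      · refine mul_nonneg (hρ0 _) ?_
        have h1 : dist (foot v) (gm e (v, 2 * D * t)) < D / 4 := by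
          by_contra h2
          exact h (hρ2 _ (not_lt.1 h2))
        rw [dist_gm F hD hB hdiam v (mul_nonneg (by positivity) ht.1.le)
          (by nlinarith [ht.2]), min_lt_iff] at h1
        rcases h1 with h1 | h1
        · have h2 : t < 1 / 8 := by
            by_contra h3
            nlinarith [not_lt.1 h3]
          refine Real.cos_nonneg_of_mem_Icc ⟨?_, ?_⟩
          · nlinarith [Real.pi_pos, ht.1, mul_pos Real.pi_pos ht.1]
          · nlinarith [Real.pi_pos]
        · have h2 : 7 / 8 < t := by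
            by_contra h3
            nlinarith [not_lt.1 h3]
          have h3 : Real.cos (2 * Real.pi * t) = Real.cos (2 * Real.pi * t - 2 * Real.pi) :=
            (Real.cos_sub_two_pi _).symm
          rw [h3]
          refine Real.cos_nonneg_of_mem_Icc ⟨?_, ?_⟩
          · nlinarith [Real.pi_pos]
          · nlinarith [Real.pi_pos, ht.2]
    · rw [mul_zero, mul_zero, Real.cos_zero, mul_one, gm_zero F, hρ1]
      exact one_pos
  have hre : (fou (actUT F hD hB hdiam) (fun w => ρ (foot w)) v).re =
      ∫ t in (0 : ℝ)..1, ρ (gm e (v, 2 * D * t)) * Real.cos (2 * Real.pi * t) := by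
    have h1 : fou (actUT F hD hB hdiam) (fun w => ρ (foot w)) v =
        ∫ t in (0 : ℝ)..1, (ρ (gm e (v, 2 * D * t)) : ℂ) *
          Complex.exp ((2 * Real.pi * (-t) : ℝ) * Complex.I) := rfl
    have h2 : Continuous fun t : ℝ => (ρ (gm e (v, 2 * D * t)) : ℂ) *
          Complex.exp ((2 * Real.pi * (-t) : ℝ) * Complex.I) := by
      refine (Complex.continuous_ofReal.comp hc2).mul (Complex.continuous_exp.comp ?_)
      exact (Complex.continuous_ofReal.comp (continuous_const.mul continuous_neg)).mul
        continuous_const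
    rw [h1]
    have h3 := intervalIntegral.intervalIntegral_re (𝕜 := ℂ) (μ := volume) (a := 0) (b := 1)
      (h2.intervalIntegrable 0 1)
    refine Eq.trans h3.symm ?_
    refine intervalIntegral.integral_congr fun t _ => ?_
    change ((ρ (gm e (v, 2 * D * t)) : ℂ) *
          Complex.exp ((2 * Real.pi * (-t) : ℝ) * Complex.I)).re = _
    rw [Complex.re_ofReal_mul, Complex.exp_ofReal_mul_I_re]
    congr 1
    rw [mul_neg, Real.cos_neg]
  intro h0
  rw [h0, Complex.zero_re] at hre
  exact hpos.ne hre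

/-- rescaling time in the variation -/
theorem var_scale {X : Type*} [PseudoEMetricSpace X] (f : ℝ → X) {c : ℝ} (hc : 0 < c) :
    eVariationOn (fun t => f (c * t)) (Icc 0 1) = eVariationOn f (Icc 0 c) := by
  have h1 := eVariationOn.comp_eq_of_monotoneOn f (t := Icc (0 : ℝ) 1) (fun t : ℝ => c * t)
    (fun s _ t _ h => mul_le_mul_of_nonneg_left h hc.le)
  have h2 : (fun t : ℝ => c * t) '' Icc (0 : ℝ) 1 = Icc 0 c := by
    rw [image_mul_left_Icc hc.le zero_le_one, mul_zero, mul_one]
  rw [h2] at h1
  exact h1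

/-- **Equivariant contraction over the unit tangent bundle.** A smooth map `C` from the unit
tangent bundle to `M`, all of whose loops `t ↦ C (φ_t v)`, `t ∈ [0, 2 D]`, have variation less than
`2 D`, is smoothly homotopic through such maps to one which is constant along the orbits of the
geodesic flow. -/
theorem uec_UT (F : Facts e) {D : ℝ} (hD : 0 < D) (hB : InjGE e D)
    (hdiam : ∀ p q : M, dist p q ≤ D) {C : UT E M → M} (hC : (dUT E M).Map (dM E M) C)
    (hlen : ∀ v, eVariationOn (fun t => C (phi F (v, t))) (Icc 0 (2 * D)) <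
      ENNReal.ofReal (2 * D)) :
    ∃ H : UT E M × ℝ → M, ((dUT E M).prod (Dif.lin ℝ)).Map (dM E M) H ∧
      (∀ v u, u ≤ 0 → H (v, u) = C v) ∧ (∀ v u, 1 ≤ u → H (v, u) = H (v, 1)) ∧
      (∀ v t, H (phi F (v, t), 1) = H (v, 1)) ∧
      (∀ v u, eVariationOn (fun t => H (phi F (v, t), u)) (Icc 0 (2 * D)) ≤
        eVariationOn (fun t => C (phi F (v, t))) (Icc 0 (2 * D))) ∧
      (∀ v, (∀ t, C (phi F (v, t)) = C v) → ∀ u, H (v, u) = C v) := by
  have : CompactSpace (UT E M) := compactSpace_UT
  have h2D : 0 < 2 * D := by positivity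
  have hA : ∀ (v : UT E M) (t : ℝ), (actUT F hD hB hdiam).φ v t = phi F (v, 2 * D * t) :=
    fun v t => rfl
  have hvar : ∀ (K : UT E M → M) (v : UT E M),
      eVariationOn (fun t => K ((actUT F hD hB hdiam).φ v t)) (Icc 0 1) =
        eVariationOn (fun t => K (phi F (v, t))) (Icc 0 (2 * D)) := fun K v =>
    var_scale (fun t => K (phi F (v, t))) h2D
  obtain ⟨H, h1, h2, h3, h4, h5, h6⟩ := uec (A := actUT F hD hB hdiam)
    (fun G hG => continuous_of_map_dUT (plotsCont_lin ℂ) hG)
    (fun v => fou_ne F hD hB hdiam v) (WD3.geoM F hB) hC (by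
      intro v
      rw [hvar]
      refine (hlen v).trans_le (le_of_eq ?_)
      rw [ENNReal.ofReal_mul zero_le_two, ENNReal.ofReal_ofNat])
  have hscale : ∀ t : ℝ, 2 * D * (t / (2 * D)) = t := fun t => by
    field_simp
  refine ⟨fun p => H p.1 p.2, h1, h2, h3, fun v t => ?_, fun v u => ?_, fun v hv u => ?_⟩
  · have h7 := h4 v (t / (2 * D))
    rw [hA, hscale] at h7
    exact h7
  · have h7 := h5 v u
    rw [hvar C, hvar fun w => H w u] at h7
    exact h7
  · exact h6 v (fun t => hv (2 * D * t)) u

end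

end Vale.Agent.P231.WF
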