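import Vale.Agent.P231.W.Defs
import Vale.Agent.P231.H775.SmV

/-!
# P231, block F1: the topology of the unit tangent bundle, compactness, continuity of smooth maps
-/

set_option maxSynthPendingDepth 3
set_option linter.unusedSectionVars false
set_option linter.unusedVariables false

open Bundle Manifold Set Filter Module
open scoped ContDiff Manifold Topology

namespace Vale.Agent.P231.WF

open Vale.Agent.P231.Fm

/-! ### topologies compatible with a diffeology -/

/-- the plots of the diffeology are continuous -/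
def PlotsCont {X : Type*} [TopologicalSpace X] (D : Dif X) : Prop :=
  ∀ {E : Type} [NormedAddCommGroup E] [NormedSpace ℝ E] [FiniteDimensional ℝ E]
    {u : E → X} {x : E}, D.At u x → ContinuousAt u x

/-- near every point there is a plot with a continuous section -/
def LocSec {X : Type*} [TopologicalSpace X] (D : Dif X) : Prop :=
  ∀ x₀ : X, ∃ (F : Type) (_ : NormedAddCommGroup F) (_ : NormedSpace ℝ F)
    (_ : FiniteDimensional ℝ F) (c : F → X) (s : X → F),
    D.At c (s x₀) ∧ ContinuousAt s x₀ ∧ ∀ᶠ x in 𝓝 x₀, c (s x) = x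

theorem plotsCont_lin (V : Type*) [NormedAddCommGroup V] [NormedSpace ℝ V] :
    PlotsCont (Dif.lin V) := fun {E} _ _ _ {u x} h => Sm.continuousAt h

theorem PlotsCont.prod {X Y : Type*} [TopologicalSpace X] [TopologicalSpace Y] {D : Dif X}
    {D' : Dif Y} (h : PlotsCont D) (h' : PlotsCont D') : PlotsCont (D.prod D') :=
  fun {E} _ _ _ {u x} hu => by
    have h1 := h hu.1
    have h2 := h' hu.2
    exact h1.prodMk h2

theorem locSec_lin (V : Type) [NormedAddCommGroup V] [NormedSpace ℝ V] [FiniteDimensional ℝ V] :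
    LocSec (Dif.lin V) := fun x₀ =>
  ⟨V, inferInstance, inferInstance, inferInstance, id, id, Sm.of_contDiff contDiff_id _,
    continuousAt_id, Eventually.of_forall fun _ => rfl⟩

theorem LocSec.prod {X Y : Type*} [TopologicalSpace X] [TopologicalSpace Y] {D : Dif X}
    {D' : Dif Y} (h : LocSec D) (h' : LocSec D') : LocSec (D.prod D') := by
  rintro ⟨x₀, y₀⟩
  obtain ⟨F, _, _, _, c, s, h1, h2, h3⟩ := h x₀
  obtain ⟨F', _, _, _, c', s', h1', h2', h3'⟩ := h' y₀
  refine ⟨F × F', inferInstance, inferInstance, inferInstance, fun z => (c z.1, c' z.2),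
    fun z => (s z.1, s' z.2), ⟨?_, ?_⟩, ?_, ?_⟩
  · exact D.comp (u := c) (g := Prod.fst) (x := (s x₀, s' y₀)) h1 (Sm.of_contDiff contDiff_fst _)
  · exact D'.comp (u := c') (g := Prod.snd) (x := (s x₀, s' y₀)) h1'
      (Sm.of_contDiff contDiff_snd _)
  · have e1 : ContinuousAt (fun z : X × Y => s z.1) (x₀, y₀) :=
      ContinuousAt.comp (f := Prod.fst) (g := s) (x := (x₀, y₀)) h2 continuousAt_fst
    have e2 : ContinuousAt (fun z : X × Y => s' z.2) (x₀, y₀) :=
      ContinuousAt.comp (f := Prod.snd) (g := s') (x := (x₀, y₀)) h2' continuousAt_snd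
    exact e1.prodMk e2
  · have e1 : Tendsto (Prod.fst : X × Y → X) (𝓝 (x₀, y₀)) (𝓝 x₀) := continuousAt_fst
    have e2 : Tendsto (Prod.snd : X × Y → Y) (𝓝 (x₀, y₀)) (𝓝 y₀) := continuousAt_snd
    filter_upwards [e1.eventually h3, e2.eventually h3'] with z hz1 hz2
    exact Prod.ext hz1 hz2

/-- smooth maps are continuous -/
theorem LocSec.continuous {X Y : Type*} [TopologicalSpace X] [TopologicalSpace Y] {D : Dif X}
    {D' : Dif Y} (h : LocSec D) (h' : PlotsCont D') {f : X → Y} (hf : D.Map D' f) :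
    Continuous f := by
  refine continuous_iff_continuousAt.2 fun x₀ => ?_
  obtain ⟨F, _, _, _, c, s, h1, h2, h3⟩ := h x₀
  have h4 : ContinuousAt (f ∘ c) (s x₀) := h' (hf h1)
  have h5 : ContinuousAt ((f ∘ c) ∘ s) x₀ := h4.comp h2
  refine h5.congr ?_
  filter_upwards [h3] with x hx
  simp only [Function.comp_apply, hx]

noncomputable section

open Vale.Agent.P234 Vale.Agent.P231 Vale.Agent.P231.W Vale.Agent.P231.H775

section Types

variable (E : Type*) [NormedAddCommGroup E] [NormedSpace ℝ E]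
  (M : Type*) [MetricSpace M] [ChartedSpace E M]
  [RiemannianBundle (fun x : M => TangentSpace 𝓘(ℝ, E) x)]
  [IsManifold 𝓘(ℝ, E) ∞ M]

/-- the topology of the unit tangent bundle -/
@[reducible] def topUT : TopologicalSpace (UT E M) :=
  TopologicalSpace.induced (Subtype.val : UT E M → TangentBundle 𝓘(ℝ, E) M) inferInstance

theorem plotsCont_dM : PlotsCont (dM E M) := fun {E'} _ _ _ {u x} h => by
  have h1 : ContMDiffAt 𝓘(ℝ, E') 𝓘(ℝ, E) ∞ u x := Filter.Eventually.self_of_nhds h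
  exact h1.continuousAt

theorem plotsCont_dUT : @PlotsCont _ (topUT E M) (dUT E M) := fun {E'} _ _ _ {u x} h => by
  have h1 : ContMDiffAt 𝓘(ℝ, E') 𝓘(ℝ, E).tangent ∞ (Subtype.val ∘ u) x :=
    Filter.Eventually.self_of_nhds h
  letI := topUT E M
  exact (Topology.IsInducing.induced (Subtype.val : UT E M → TangentBundle 𝓘(ℝ, E) M)
    |>.continuousAt_iff).2 h1.continuousAt

end Types

attribute [local instance] topUT

variable {E : Type*} [NormedAddCommGroup E] [NormedSpace ℝ E] [FiniteDimensional ℝ E]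
  {M : Type*} [MetricSpace M] [ChartedSpace E M] [IsManifold 𝓘(ℝ, E) ∞ M]
  [RiemannianBundle (fun x : M => TangentSpace 𝓘(ℝ, E) x)]
  [IsContMDiffRiemannianBundle 𝓘(ℝ, E) ∞ E (fun x : M => TangentSpace 𝓘(ℝ, E) x)]

theorem continuous_val : Continuous (Subtype.val : UT E M → TangentBundle 𝓘(ℝ, E) M) :=
  continuous_induced_dom

theorem continuous_foot : Continuous (foot : UT E M → M) :=
  (FiberBundle.continuous_proj E (TangentSpace 𝓘(ℝ, E) : M → Type _)).comp continuous_val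

/-- normalisation near a unit vector, as a plot with a continuous section -/
theorem locSec_dUT : LocSec (dUT E M) := by
  classical
  intro v₀
  let m := finrank ℝ (E × E)
  let φ : (E × E) ≃L[ℝ] EuclideanSpace ℝ (Fin m) :=
    ContinuousLinearEquiv.ofFinrankEq (by rw [finrank_euclideanSpace, Fintype.card_fin])
  set x₀ : M := foot v₀ with hx₀
  let W : E × E → TangentBundle 𝓘(ℝ, E) M := fun p =>
    ⟨(extChartAt 𝓘(ℝ, E) x₀).symm p.1,
      ‖vec x₀ ((extChartAt 𝓘(ℝ, E) x₀).symm p.1) p.2‖⁻¹ •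
        vec x₀ ((extChartAt 𝓘(ℝ, E) x₀).symm p.1) p.2⟩
  let c : EuclideanSpace ℝ (Fin m) → UT E M := fun z =>
    if h : ‖(W (φ.symm z)).2‖ = 1 then ⟨W (φ.symm z), h⟩ else v₀
  let q : UT E M → E × E := fun v => (extChartAt 𝓘(ℝ, E) x₀ v.1.1, crd x₀ v.1.1 v.1.2)
  have hsrc0 : x₀ ∈ (extChartAt 𝓘(ℝ, E) x₀).source := mem_extChartAt_source x₀
  have hsrc : ∀ᶠ v in 𝓝 v₀, v.1.1 ∈ (extChartAt 𝓘(ℝ, E) x₀).source :=
    (continuous_foot.continuousAt (x := v₀)).eventually
      ((isOpen_extChartAt_source (I := 𝓘(ℝ, E)) x₀).mem_nhds hsrc0)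
  have hn1 : ∀ v : UT E M, ‖v.1.2‖ = 1 := fun v => v.2
  -- continuity of the coordinates
  have hqc : ContinuousAt q v₀ := by
    have h1 : ContinuousAt (tchart E x₀) v₀.1 :=
      ((contMDiffOn_tchart x₀).continuousOn.continuousAt
        ((isOpen_tchart_source x₀).mem_nhds ((mem_tchart_source x₀ _).2 (exm_mem_source hsrc0))))
    have h2 : ContinuousAt (fun v : UT E M => tchart E x₀ v.1) v₀ :=
      ContinuousAt.comp (f := Subtype.val) (g := tchart E x₀) (x := v₀) h1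
        continuous_val.continuousAt
    refine h2.congr ?_
    filter_upwards [hsrc] with v hv
    exact tchart_apply x₀ hv v.1.2
  -- the point `q v₀`
  have hq1 : (extChartAt 𝓘(ℝ, E) x₀).symm (q v₀).1 = x₀ := (extChartAt 𝓘(ℝ, E) x₀).left_inv hsrc0
  have htgt : ∀ᶠ p in 𝓝 (q v₀), p.1 ∈ (extChartAt 𝓘(ℝ, E) x₀).target := by
    have h1 : Tendsto (Prod.fst : E × E → E) (𝓝 (q v₀)) (𝓝 (extChartAt 𝓘(ℝ, E) x₀ x₀)) :=
      continuous_fst.tendsto' _ _ rfl
    exact h1 (extChartAt_target_mem_nhds x₀)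
  have hξ0 : (q v₀).2 ≠ 0 := by
    intro h
    have h1 : vec x₀ v₀.1.1 (q v₀).2 = v₀.1.2 := vec_crd x₀ hsrc0 v₀.1.2
    have h2 := hn1 v₀
    rw [← h1, h, map_zero, norm_zero] at h2
    exact zero_ne_one h2
  have hne0 : ∀ᶠ p in 𝓝 (q v₀), p.2 ≠ 0 :=
    (continuous_snd.continuousAt (x := q v₀)).eventually_ne hξ0
  have hsm : ∀ᶠ p in 𝓝 (q v₀), SmV (fun p : E × E => (extChartAt 𝓘(ℝ, E) x₀).symm p.1)
      (fun p => vec x₀ ((extChartAt 𝓘(ℝ, E) x₀).symm p.1) p.2) p := by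
    filter_upwards [htgt] with p hp
    refine smV_vec (V := E × E) (f := fun p : E × E => (extChartAt 𝓘(ℝ, E) x₀).symm p.1) x₀
      ((extChartAt 𝓘(ℝ, E) x₀).map_target hp) ?_ contDiffAt_snd
    have h4 : ContMDiffAt 𝓘(ℝ, E) 𝓘(ℝ, E) ∞ (extChartAt 𝓘(ℝ, E) x₀).symm p.1 :=
      (contMDiffOn_extChartAt_symm x₀).contMDiffAt
        ((isOpen_extChartAt_target x₀).mem_nhds hp)
    exact h4.comp p contDiffAt_fst.contMDiffAt
  have hne : ∀ᶠ p in 𝓝 (q v₀), vec x₀ ((extChartAt 𝓘(ℝ, E) x₀).symm p.1) p.2 ≠ 0 := by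
    filter_upwards [htgt, hne0] with p hp hp2 h0
    have h2 := crd_vec x₀ ((extChartAt 𝓘(ℝ, E) x₀).map_target hp) p.2
    rw [h0, map_zero] at h2
    exact hp2 h2.symm
  have hW : ∀ᶠ p in 𝓝 (q v₀), ContMDiffAt 𝓘(ℝ, E × E) 𝓘(ℝ, E).tangent ∞ W p ∧
      ‖(W p).2‖ = 1 := by
    filter_upwards [hsm, hne] with p h1 h2
    refine ⟨?_, ?_⟩
    · have h3 := h1.norm_sq
      have h4 : ‖vec x₀ ((extChartAt 𝓘(ℝ, E) x₀).symm p.1) p.2‖ ^ 2 ≠ 0 :=
        pow_ne_zero 2 (norm_ne_zero_iff.2 h2)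
      have h5 := (h3.sqrt h4).inv (by
        rw [Real.sqrt_sq (norm_nonneg _)]
        exact norm_ne_zero_iff.2 h2)
      have h6 : ContDiffAt ℝ ∞ (fun p : E × E =>
          ‖vec x₀ ((extChartAt 𝓘(ℝ, E) x₀).symm p.1) p.2‖⁻¹) p := by
        refine h5.congr_of_eventuallyEq (Filter.Eventually.of_forall fun s => ?_)
        change ‖_‖⁻¹ = (Real.sqrt (‖_‖ ^ 2))⁻¹
        rw [Real.sqrt_sq (norm_nonneg _)]
      exact SmV.smul h6 h1
    · change ‖‖_‖⁻¹ • _‖ = 1
      rw [norm_smul, norm_inv, norm_norm, inv_mul_cancel₀ (norm_ne_zero_iff.2 h2)]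
  have hφc : Tendsto (fun z => φ.symm z) (𝓝 (φ (q v₀))) (𝓝 (q v₀)) := by
    have h1 := φ.symm.continuous.continuousAt (x := φ (q v₀))
    have h2 : Tendsto (fun z => φ.symm z) (𝓝 (φ (q v₀))) (𝓝 (φ.symm (φ (q v₀)))) := h1
    rw [φ.symm_apply_apply] at h2
    exact h2
  have hWz := hφc.eventually hW
  refine ⟨EuclideanSpace ℝ (Fin m), inferInstance, inferInstance, inferInstance, c,
    fun v => φ (q v), ?_, φ.continuous.continuousAt.comp hqc, ?_⟩
  · have hcz : ∀ᶠ z in 𝓝 (φ (q v₀)), ContMDiffAt 𝓘(ℝ, EuclideanSpace ℝ (Fin m))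
        𝓘(ℝ, E).tangent ∞ (fun z => (c z).1) z := by
      filter_upwards [hWz, hWz.eventually_nhds] with z h1 h2
      have h3 : ContMDiffAt 𝓘(ℝ, EuclideanSpace ℝ (Fin m)) 𝓘(ℝ, E).tangent ∞
          (fun z => W (φ.symm z)) z := h1.1.comp z (φ.symm.contDiff.contDiffAt.contMDiffAt)
      refine h3.congr_of_eventuallyEq ?_
      filter_upwards [h2] with z' h4
      have h5 : c z' = ⟨W (φ.symm z'), h4.2⟩ := dif_pos h4.2
      rw [h5]
    exact hcz
  · filter_upwards [hsrc] with v hv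
    have h3 : φ.symm (φ (q v)) = q v := φ.symm_apply_apply _
    have h5 : W (φ.symm (φ (q v))) = v.1 := by
      rw [h3]
      simp only [W, q]
      rw [(extChartAt 𝓘(ℝ, E) x₀).left_inv hv, vec_crd x₀ hv, hn1, inv_one, one_smul]
    have h6 : ‖(W (φ.symm (φ (q v)))).2‖ = 1 := by
      rw [h5]
      exact v.2
    have h7 : c (φ (q v)) = ⟨W (φ.symm (φ (q v))), h6⟩ := dif_pos h6
    rw [h7]
    exact Subtype.ext h5

/-- smooth maps on the unit tangent bundle with values in a space with continuous plots are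
continuous -/
theorem continuous_of_map_dUT {Y : Type*} [TopologicalSpace Y] {D' : Dif Y} (h' : PlotsCont D')
    {f : UT E M → Y} (hf : (dUT E M).Map D' f) : Continuous f :=
  locSec_dUT.continuous h' hf

theorem continuous_of_map_dUT_prod {Y : Type*} [TopologicalSpace Y] {D' : Dif Y}
    (h' : PlotsCont D') {f : UT E M × ℝ → Y}
    (hf : ((dUT E M).prod (Dif.lin ℝ)).Map D' f) : Continuous f :=
  (locSec_dUT.prod (locSec_lin ℝ)).continuous h' hf

/-- the unit tangent bundle is compact -/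
theorem compactSpace_UT [CompactSpace M] : CompactSpace (UT E M) := by
  have := isContinuousRiemannianBundle_tangent (E := E) (M := M)
  have hproper : ProperSpace E := FiniteDimensional.proper ℝ E
  refine ⟨isCompact_iff_ultrafilter_le_nhds.2 fun f _ => ?_⟩
  obtain ⟨z₀, -, hz⟩ := isCompact_iff_ultrafilter_le_nhds.1 (isCompact_univ (X := M))
    (f.map foot) (by simp)
  have hz' : Tendsto (foot : UT E M → M) f (𝓝 z₀) := hz
  obtain ⟨C, hC, hev⟩ := eventually_norm_trivializationAt_lt E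
    (fun x : M => TangentSpace 𝓘(ℝ, E) x) z₀
  have hz₀ : z₀ ∈ (trivializationAt E (TangentSpace 𝓘(ℝ, E)) z₀).baseSet :=
    FiberBundle.mem_baseSet_trivializationAt' z₀
  have h1 : ∀ᶠ v in (f : Filter (UT E M)),
      bkCrd z₀ v.1.1 v.1.2 ∈ Metric.closedBall (0 : E) C := by
    filter_upwards [hz'.eventually hev] with v hv
    rw [mem_closedBall_zero_iff]
    refine (ContinuousLinearMap.le_opNorm _ _).trans ?_
    have h2 : ‖v.1.2‖ = 1 := v.2
    rw [h2, mul_one]
    exact hv.le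
  obtain ⟨w, -, hw⟩ := isCompact_iff_ultrafilter_le_nhds.1
    (isCompact_closedBall (0 : E) C) (f.map fun v : UT E M => bkCrd z₀ v.1.1 v.1.2) (by
      rw [Ultrafilter.coe_map, le_principal_iff, mem_map]
      exact h1)
  have hw' : Tendsto (fun v : UT E M => bkCrd z₀ v.1.1 v.1.2) f (𝓝 w) := hw
  set v₀ : TangentSpace 𝓘(ℝ, E) z₀ :=
    (trivializationAt E (TangentSpace 𝓘(ℝ, E)) z₀).symmL ℝ z₀ w with hv₀
  have hmem : (⟨z₀, v₀⟩ : TangentBundle 𝓘(ℝ, E) M) ∈
      (trivializationAt E (TangentSpace 𝓘(ℝ, E)) z₀).source := by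
    rw [Trivialization.mem_source]
    exact hz₀
  have hT : Tendsto (fun v : UT E M => v.1) f (𝓝 (⟨z₀, v₀⟩ : TangentBundle 𝓘(ℝ, E) M)) := by
    rw [Trivialization.tendsto_nhds_iff _ hmem]
    refine ⟨hz', ?_⟩
    have h2 : bkCrd z₀ z₀ v₀ = ((trivializationAt E (TangentSpace 𝓘(ℝ, E)) z₀)
        (⟨z₀, v₀⟩ : TangentBundle 𝓘(ℝ, E) M)).2 := by
      unfold bkCrd
      rw [Trivialization.continuousLinearMapAt_apply, Trivialization.coe_linearMapAt_of_mem _ hz₀]
    have h3 : bkCrd z₀ z₀ v₀ = w := bkCrd_symm' z₀ z₀ hz₀ w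
    rw [← h2, h3]
    refine (tendsto_congr' ?_).1 hw'
    have h4 : ∀ᶠ v in (f : Filter (UT E M)), v.1.1 ∈
        (trivializationAt E (TangentSpace 𝓘(ℝ, E)) z₀).baseSet :=
      hz' ((trivializationAt E (TangentSpace 𝓘(ℝ, E)) z₀).open_baseSet.mem_nhds hz₀)
    filter_upwards [h4] with v hv
    unfold bkCrd
    rw [Trivialization.continuousLinearMapAt_apply, Trivialization.coe_linearMapAt_of_mem _ hv]
  have hn : ‖v₀‖ = 1 := by
    have h5 : Tendsto (fun v : UT E M => ‖v.1.2‖) f (𝓝 ‖v₀‖) :=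
      ((continuous_norm_snd (E := E) (M := M)).continuousAt
        (x := (⟨z₀, v₀⟩ : TangentBundle 𝓘(ℝ, E) M))).tendsto.comp hT
    have h6 : (fun v : UT E M => ‖v.1.2‖) = fun _ => 1 := funext fun v => v.2
    rw [h6] at h5
    exact tendsto_nhds_unique h5 tendsto_const_nhds |>.trans rfl
  refine ⟨⟨⟨z₀, v₀⟩, hn⟩, mem_univ _, ?_⟩
  have h8 : 𝓝 (⟨⟨z₀, v₀⟩, hn⟩ : UT E M) = comap Subtype.val (𝓝 (⟨z₀, v₀⟩ : TangentBundle 𝓘(ℝ, E) M)) :=
    nhds_induced _ _
  exact (tendsto_iff_comap.1 hT).trans h8.ge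

end

end Vale.Agent.P231.WF
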