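import Vale.Agent.P231.WE.PolarLog

/-! P231, block F1: the logarithm inside the injectivity radius is jointly smooth in plots. -/

set_option maxSynthPendingDepth 3
set_option linter.unusedSectionVars false
set_option linter.unusedVariables false

open Bundle Manifold Set Filter Module
open scoped ContDiff Manifold Topology

namespace Vale.Agent.P231.WF

open Vale.Agent.P234 Vale.Agent.P231 Vale.Agent.P231.H775 Vale.Agent.P231.WE

noncomputable section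

variable {E : Type*} [NormedAddCommGroup E] [NormedSpace ℝ E] [FiniteDimensional ℝ E]
  {M : Type*} [MetricSpace M] [ChartedSpace E M] [IsManifold 𝓘(ℝ, E) ∞ M]
  [RiemannianBundle (fun x : M => TangentSpace 𝓘(ℝ, E) x)]
  [IsContMDiffRiemannianBundle 𝓘(ℝ, E) ∞ E (fun x : M => TangentSpace 𝓘(ℝ, E) x)]
  {e : ∀ x : M, TangentSpace 𝓘(ℝ, E) x → M}
  {V : Type*} [NormedAddCommGroup V] [NormedSpace ℝ V] [CompleteSpace V]

/-- the exponential map in coordinates along a plot -/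
def lgP (e : ∀ x : M, TangentSpace 𝓘(ℝ, E) x → M) (a : V → M) (x₀ y₀ : M) (p : V × E) : E :=
  extChartAt 𝓘(ℝ, E) y₀ (e (a p.1) (vec x₀ (a p.1) p.2))

theorem lgP_smooth (he : IsExp e) {a : V → M} {s₀ : V} {y₀ : M} {ξ₀ : E}
    (ha : ∀ᶠ s in 𝓝 s₀, ContMDiffAt 𝓘(ℝ, V) 𝓘(ℝ, E) ∞ a s)
    (hy : e (a s₀) (vec (a s₀) (a s₀) ξ₀) = y₀) :
    (∀ᶠ p in 𝓝 (s₀, ξ₀), SmV (V := V × E) (fun p : V × E => a p.1)
      (fun p => vec (a s₀) (a p.1) p.2) p) ∧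
    (∀ᶠ p in 𝓝 (s₀, ξ₀), e (a p.1) (vec (a s₀) (a p.1) p.2) ∈ (extChartAt 𝓘(ℝ, E) y₀).source) ∧
    ∀ᶠ p in 𝓝 (s₀, ξ₀), ContDiffAt ℝ ∞ (lgP e a (a s₀) y₀) p := by
  have hfst : Tendsto (Prod.fst : V × E → V) (𝓝 (s₀, ξ₀)) (𝓝 s₀) :=
    continuous_fst.tendsto' _ _ rfl
  have h1 : ∀ᶠ p in 𝓝 (s₀, ξ₀),
      ContMDiffAt 𝓘(ℝ, V) 𝓘(ℝ, E) ∞ a p.1 ∧ a p.1 ∈ (extChartAt 𝓘(ℝ, E) (a s₀)).source := by
    have h2 := ha.self_of_nhds.continuousAt.eventually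
      ((isOpen_extChartAt_source (I := 𝓘(ℝ, E)) (a s₀)).mem_nhds (mem_extChartAt_source (a s₀)))
    exact hfst.eventually (ha.and h2)
  have hsm : ∀ᶠ p in 𝓝 (s₀, ξ₀),
      SmV (V := V × E) (fun p : V × E => a p.1) (fun p => vec (a s₀) (a p.1) p.2) p := by
    filter_upwards [h1] with p hp
    refine smV_vec (V := V × E) (a s₀) hp.2 ?_ contDiffAt_snd
    exact hp.1.comp p contDiffAt_fst.contMDiffAt
  have hex : ∀ᶠ p in 𝓝 (s₀, ξ₀), ContMDiffAt 𝓘(ℝ, V × E) 𝓘(ℝ, E) ∞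
      (fun p : V × E => e (a p.1) (vec (a s₀) (a p.1) p.2)) p := by
    filter_upwards [hsm] with p hp
    exact hp.exp he
  have hexs : ∀ᶠ p in 𝓝 (s₀, ξ₀),
      e (a p.1) (vec (a s₀) (a p.1) p.2) ∈ (extChartAt 𝓘(ℝ, E) y₀).source := by
    have h4 := hex.self_of_nhds.continuousAt
    refine h4.eventually ((isOpen_extChartAt_source (I := 𝓘(ℝ, E)) y₀).mem_nhds ?_)
    simp only
    rw [hy]
    exact mem_extChartAt_source y₀
  refine ⟨hsm, hexs, ?_⟩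
  filter_upwards [hex, hexs] with p h7 h8
  have h9 : ContMDiffAt 𝓘(ℝ, V × E) 𝓘(ℝ, E) ∞ (lgP e a (a s₀) y₀) p :=
    (contMDiffAt_extChartAt' (exm_mem_source h8)).comp p h7
  exact h9.contDiffAt

variable [CompactSpace M] [ConnectedSpace M] [IsRiemannianManifold 𝓘(ℝ, E) M]

/-- the logarithm is jointly smooth in plots -/
theorem smV_logMap (F : Facts e) {D : ℝ} (hB : InjGE e D) {a b : V → M} {s₀ : V}
    (ha : ∀ᶠ s in 𝓝 s₀, ContMDiffAt 𝓘(ℝ, V) 𝓘(ℝ, E) ∞ a s)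
    (hb : ContMDiffAt 𝓘(ℝ, V) 𝓘(ℝ, E) ∞ b s₀) (hd : dist (a s₀) (b s₀) < D) :
    SmV a (fun s => logMap e (a s) (b s)) s₀ := by
  have : CompleteSpace E := FiniteDimensional.complete ℝ E
  obtain ⟨v₀, hv₀⟩ : ∃ v₀ : TangentSpace 𝓘(ℝ, E) (a s₀), v₀ = logMap e (a s₀) (b s₀) := ⟨_, rfl⟩
  obtain ⟨h1, h2⟩ := exp_logMap F hB hd
  rw [← hv₀] at h1 h2
  have hsrc : a s₀ ∈ (extChartAt 𝓘(ℝ, E) (a s₀)).source := mem_extChartAt_source (a s₀)
  set ξ₀ : E := crd (a s₀) (a s₀) v₀ with hξ₀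
  have hvec0 : vec (a s₀) (a s₀) ξ₀ = v₀ := vec_crd (a s₀) hsrc v₀
  have hy : e (a s₀) (vec (a s₀) (a s₀) ξ₀) = b s₀ := by rw [hvec0, h1]
  obtain ⟨hsm, hexs, hΦ⟩ := lgP_smooth F.isExp ha hy
  -- the differential in the second variable is injective
  have hinj : ∀ η : E, fderiv ℝ (lgP e a (a s₀) (b s₀)) (s₀, ξ₀) (0, η) = 0 → η = 0 := by
    intro η hη
    obtain ⟨w, hw⟩ : ∃ w : TangentSpace 𝓘(ℝ, E) (a s₀), w = vec (a s₀) (a s₀) η := ⟨_, rfl⟩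
    have hd1 : HasFDerivAt (lgP e a (a s₀) (b s₀)) (fderiv ℝ (lgP e a (a s₀) (b s₀)) (s₀, ξ₀))
        (s₀, ξ₀) := (hΦ.self_of_nhds.differentiableAt (by simp)).hasFDerivAt
    have hc : HasDerivAt (fun t : ℝ => ((s₀, ξ₀ + t • η) : V × E)) (0, η) 0 := by
      have h1 : HasDerivAt (fun t : ℝ => t • η) ((1 : ℝ) • η) 0 :=
        (hasDerivAt_id (0 : ℝ)).smul_const η
      rw [one_smul] at h1
      exact (hasDerivAt_const 0 s₀).prodMk (h1.const_add _)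
    have h2 : HasDerivAt (fun t : ℝ => lgP e a (a s₀) (b s₀) (s₀, ξ₀ + t • η)) 0 0 := by
      have h3 : HasFDerivAt (lgP e a (a s₀) (b s₀)) (fderiv ℝ (lgP e a (a s₀) (b s₀)) (s₀, ξ₀))
          (s₀, ξ₀ + (0 : ℝ) • η) := by
        rw [zero_smul, add_zero]
        exact hd1
      have h4 := h3.comp_hasDerivAt (0 : ℝ) hc
      rw [hη] at h4
      exact h4
    have h3 : (dE e (a s₀) ((1 : ℝ) • v₀) ((1 : ℝ) • w) : E) = 0 := by
      refine dE_eq_zero_of_chart F.isExp (y := b s₀) (by rw [one_smul, h1]) ?_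
      have h4 : (fun t : ℝ => extChartAt 𝓘(ℝ, E) (b s₀) (e (a s₀) ((1 : ℝ) • (v₀ + t • w)))) =
          fun t : ℝ => lgP e a (a s₀) (b s₀) (s₀, ξ₀ + t • η) := by
        funext t
        simp only [lgP]
        rw [map_add, map_smul, hvec0, one_smul, hw]
      rw [h4]
      exact h2
    have h5 : (dE e (a s₀) v₀ w : E) = 0 := by
      have h6 : ((1 : ℝ) • v₀ : TangentSpace 𝓘(ℝ, E) (a s₀)) = v₀ := one_smul ℝ v₀
      have h7 : ((1 : ℝ) • w : TangentSpace 𝓘(ℝ, E) (a s₀)) = w := one_smul ℝ w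
      rw [h6, h7] at h3
      exact h3
    have h8 : w = 0 := dE_injective F hB (by
      change ‖v₀‖ < D
      rw [‹‖v₀‖ = dist (a s₀) (b s₀)›]
      exact hd) h5
    have h9 := crd_vec (a s₀) hsrc η
    rw [← hw, h8, map_zero] at h9
    exact h9.symm
  have hbij : Function.Bijective
      (fun v : E => fderiv ℝ (lgP e a (a s₀) (b s₀)) (s₀, ξ₀) (0, v)) := by
    set L : E →ₗ[ℝ] E := (fderiv ℝ (lgP e a (a s₀) (b s₀)) (s₀, ξ₀)).toLinearMap ∘ₗ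
      LinearMap.inr ℝ V E with hL
    have hL1 : Function.Injective L := (injective_iff_map_eq_zero L).2 fun η hη => hinj η hη
    exact ⟨hL1, LinearMap.injective_iff_surjective.1 hL1⟩
  obtain ⟨G, hG1, hG2, hG3, hG4⟩ := param_inverse (F := lgP e a (a s₀) (b s₀)) (a := (s₀, ξ₀))
    (n := ∞) hΦ (by simp) hbij
  have hF0 : lgP e a (a s₀) (b s₀) (s₀, ξ₀) = extChartAt 𝓘(ℝ, E) (b s₀) (b s₀) := by
    simp only [lgP]
    rw [hy]
  simp only [hF0] at hG1 hG2 hG3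
  -- the coordinates of the logarithm
  set q : V → V × E := fun s => (s, extChartAt 𝓘(ℝ, E) (b s₀) (b s)) with hq
  have hqc : ContDiffAt ℝ ∞ q s₀ := by
    have h3 : ContMDiffAt 𝓘(ℝ, V) 𝓘(ℝ, E) ∞ (fun s => extChartAt 𝓘(ℝ, E) (b s₀) (b s)) s₀ :=
      (contMDiffAt_extChartAt).comp s₀ hb
    exact contDiffAt_id.prodMk h3.contDiffAt
  have hqt : Tendsto q (𝓝 s₀) (𝓝 (s₀, extChartAt 𝓘(ℝ, E) (b s₀) (b s₀))) := hqc.continuousAt
  have hξc : ContDiffAt ℝ ∞ (fun s => G (q s)) s₀ := hG1.self_of_nhds.comp s₀ hqc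
  have hpt : Tendsto (fun s => (s, G (q s))) (𝓝 s₀) (𝓝 (s₀, ξ₀)) := by
    have h3 : ContinuousAt (fun s => (s, G (q s))) s₀ := continuousAt_id.prodMk hξc.continuousAt
    have h4 : G (q s₀) = ξ₀ := hG2
    have h5 := h3.tendsto
    simp only [h4] at h5
    exact h5
  have hsv : SmV a (fun s => vec (a s₀) (a s) (G (q s))) s₀ :=
    smV_vec (a s₀) hsrc ha.self_of_nhds hξc
  refine hsv.congr ?_
  have hn : ContinuousAt (fun s => ‖vec (a s₀) (a s) (G (q s))‖ ^ 2) s₀ :=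
    hsv.norm_sq.continuousAt
  have hD : 0 < D := dist_nonneg.trans_lt hd
  have hn0 : ‖vec (a s₀) (a s₀) (G (q s₀))‖ ^ 2 < D ^ 2 := by
    have h4 : G (q s₀) = ξ₀ := hG2
    rw [h4, hvec0, h2]
    exact pow_lt_pow_left₀ hd dist_nonneg two_ne_zero
  filter_upwards [hn.eventually_lt_const hn0, hqt.eventually hG3, hpt.eventually hexs,
    hb.continuousAt.eventually ((isOpen_extChartAt_source (I := 𝓘(ℝ, E)) (b s₀)).mem_nhds
      (mem_extChartAt_source (b s₀)))] with s hs1 hs2 hs3 hs4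
  have h3 : ‖vec (a s₀) (a s) (G (q s))‖ < D := lt_of_pow_lt_pow_left₀ 2 hD.le hs1
  have h4 : e (a s) (vec (a s₀) (a s) (G (q s))) = b s := by
    refine (extChartAt 𝓘(ℝ, E) (b s₀)).injOn hs3 hs4 ?_
    exact hs2
  rw [← h4]
  exact (logMap_exp F hB h3).symm

end

end Vale.Agent.P231.WF
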